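import Vale.Agent.P220.R2.H180.Curve

/-!
# The arc of complex heights
-/

open Set Filter Topology
open scoped ContDiff

set_option linter.unusedSectionVars false

namespace Vale.Agent.P220.R2.H180

open H57

variable {E : Type} [NormedAddCommGroup E] [InnerProductSpace ℝ E] [FiniteDimensional ℝ E]

/-- a point of `T*S¹` in the plane of `e` and `u` -/
structure InT (e u : E) (z : E × E) : Prop where
  n1 : ‖z.1‖ = 1
  p1 : InPl e u z.1
  p2 : InPl e u z.2
  o : inner ℝ z.1 z.2 = (0 : ℝ)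

theorem wt_re (e : E) (z : E × E) : (wt e z).re = inner ℝ e z.1 * √(1 + ‖z.2‖ ^ 2) := by simp [wt]

theorem wt_im (e : E) (z : E × E) : (wt e z).im = inner ℝ e z.2 := by simp [wt]

namespace Orth

variable {e u : E} (h : Orth e u)

include h

theorem wt_rel {z : E × E} (hz : InT e u z) : wt e z ^ 2 + wt u z ^ 2 = 1 := by
  have hsq : 0 < 1 + ‖z.2‖ ^ 2 := by positivity
  have hs2 : √(1 + ‖z.2‖ ^ 2) ^ 2 = 1 + ‖z.2‖ ^ 2 := Real.sq_sqrt hsq.le
  have n1 := h.sq_sum hz.p1
  have n2 := h.sq_sum hz.p2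
  have n3 := h.inner_in hz.p1 hz.p2
  rw [hz.n1] at n1
  rw [hz.o] at n3
  set r := √(1 + ‖z.2‖ ^ 2)
  set a := (inner ℝ e z.1 : ℝ)
  set b := (inner ℝ u z.1 : ℝ)
  set c := (inner ℝ e z.2 : ℝ)
  set d := (inner ℝ u z.2 : ℝ)
  rw [sq (wt e z), sq (wt u z)]
  apply Complex.ext
  · simp only [Complex.add_re, Complex.mul_re, wt_re, wt_im, Complex.one_re]
    change a * r * (a * r) - c * c + (b * r * (b * r) - d * d) = 1
    linear_combination (r ^ 2) * n1 + hs2 - n2
  · simp only [Complex.add_im, Complex.mul_im, wt_re, wt_im, Complex.one_im]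
    change a * r * c + c * (a * r) + (b * r * d + d * (b * r)) = 0
    linear_combination (-2 * r) * n3

theorem InT_SS {z : E × E} (hz : InT e u z) : InT e u (SS u z) :=
  ⟨((Refl u).norm_map _).trans hz.n1, h.Refl_in hz.p1, h.Refl_in hz.p2,
    ((Refl u).inner_map_map _ _).trans hz.o⟩

theorem wt_SS (z : E × E) : wt e (SS u z) = wt e z := by
  apply Complex.ext
  · rw [wt_re, wt_re, SS_apply]
    simp only [h.e_Refl, LinearIsometryEquiv.norm_map]
  · rw [wt_im, wt_im, SS_apply]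
    simp only [h.e_Refl]

theorem wtu_SS (z : E × E) : wt u (SS u z) = -wt u z := by
  apply Complex.ext
  · rw [Complex.neg_re, wt_re, wt_re, SS_apply]
    simp only [h.u_Refl, LinearIsometryEquiv.norm_map]
    ring
  · rw [Complex.neg_im, wt_im, wt_im, SS_apply]
    simp only [h.u_Refl]

theorem eq_of_wt {z z' : E × E} (hz : InT e u z) (hz' : InT e u z') (h1 : wt e z = wt e z')
    (h2 : wt u z = wt u z') : z = z' := by
  have a1 := congrArg Complex.re h1
  have a2 := congrArg Complex.im h1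
  have b1 := congrArg Complex.re h2
  have b2 := congrArg Complex.im h2
  rw [wt_re, wt_re] at a1 b1
  rw [wt_im, wt_im] at a2 b2
  have h3 : z.2 = z'.2 := by rw [hz.p2, hz'.p2, a2, b2]
  rw [h3] at a1 b1
  have hr : √(1 + ‖z'.2‖ ^ 2) ≠ 0 := (Real.sqrt_pos.2 (by positivity)).ne'
  have a3 := mul_right_cancel₀ hr a1
  have b3 := mul_right_cancel₀ hr b1
  exact Prod.ext (by rw [hz.p1, hz'.p1, a3, b3]) h3

theorem eq_or_of_wt {z z' : E × E} (hz : InT e u z) (hz' : InT e u z') (h1 : wt e z = wt e z') :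
    z = z' ∨ z = SS u z' := by
  have h2 := h.wt_rel hz
  have h3 := h.wt_rel hz'
  rw [h1] at h2
  have h4 : wt u z ^ 2 = wt u z' ^ 2 := by linear_combination h2 - h3
  rcases sq_eq_sq_iff_eq_or_eq_neg.1 h4 with h5 | h5
  · exact Or.inl (h.eq_of_wt hz hz' h1 h5)
  · refine Or.inr (h.eq_of_wt hz (h.InT_SS hz') ?_ ?_)
    · rw [h.wt_SS, h1]
    · rw [h.wtu_SS, h5]

theorem deriv_in {g : ℝ → E} {g' : E} {t : ℝ} (hg : HasDerivAt g g' t) (hin : ∀ t, InPl e u (g t)) :
    InPl e u g' := by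
  have h1 : HasDerivAt (fun t => (inner ℝ e (g t) : ℝ) • e + (inner ℝ u (g t) : ℝ) • u)
      ((inner ℝ e g' : ℝ) • e + (inner ℝ u g' : ℝ) • u) t := by
    have h2 : HasDerivAt (fun t => (inner ℝ e (g t) : ℝ)) (inner ℝ e g') t := by
      simpa using (hasDerivAt_const t e).inner ℝ hg
    have h3 : HasDerivAt (fun t => (inner ℝ u (g t) : ℝ)) (inner ℝ u g') t := by
      simpa using (hasDerivAt_const t u).inner ℝ hg
    exact (h2.smul_const e).add (h3.smul_const u)
  have h4 : (fun t => (inner ℝ e (g t) : ℝ) • e + (inner ℝ u (g t) : ℝ) • u) = g :=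
    funext fun t => (hin t).symm
  rw [h4] at h1
  exact hg.unique h1

end Orth

theorem wt_hasDerivAt (e : E) {γ : ℝ → E × E} {γ' : E × E} {t : ℝ} (hγ : HasDerivAt γ γ' t) :
    HasDerivAt (fun t => wt e (γ t))
      (((inner ℝ e γ'.1 * √(1 + ‖(γ t).2‖ ^ 2) + inner ℝ e (γ t).1 *
        (2 * inner ℝ (γ t).2 γ'.2 / (2 * √(1 + ‖(γ t).2‖ ^ 2))) : ℝ) : ℂ) +
        ((inner ℝ e γ'.2 : ℝ) : ℂ) * Complex.I) t := by
  have h6 : HasDerivAt (fun t => (γ t).1) γ'.1 t :=
    (hasFDerivAt_fst (𝕜 := ℝ) (p := γ t)).comp_hasDerivAt t hγ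
  have h7 : HasDerivAt (fun t => (γ t).2) γ'.2 t :=
    (hasFDerivAt_snd (𝕜 := ℝ) (p := γ t)).comp_hasDerivAt t hγ
  have h2 : HasDerivAt (fun t => (inner ℝ e (γ t).1 : ℝ)) (inner ℝ e γ'.1) t := by
    simpa using (hasDerivAt_const t e).inner ℝ h6
  have h3 : HasDerivAt (fun t => (inner ℝ e (γ t).2 : ℝ)) (inner ℝ e γ'.2) t := by
    simpa using (hasDerivAt_const t e).inner ℝ h7
  have hsq : 1 + ‖(γ t).2‖ ^ 2 ≠ 0 := by positivity
  have h4 := (h7.norm_sq.const_add 1).sqrt hsq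
  exact (h2.mul h4).ofReal_comp.add (h3.ofReal_comp.mul_const Complex.I)

theorem wt_smooth (e : E) {γ : ℝ → E × E} (hγ : ContDiff ℝ ∞ γ) :
    ContDiff ℝ ∞ fun t => wt e (γ t) := by
  have h1 : ContDiff ℝ ∞ fun t => (γ t).1 := contDiff_fst.comp hγ
  have h2 : ContDiff ℝ ∞ fun t => (γ t).2 := contDiff_snd.comp hγ
  have h3 : ContDiff ℝ ∞ fun t => √(1 + ‖(γ t).2‖ ^ 2) :=
    (contDiff_const.add ((contDiff_norm_sq ℝ).comp h2)).sqrt
      (fun t => ne_of_gt (add_pos_of_pos_of_nonneg one_pos (sq_nonneg _)))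
  exact of_re_im ((contDiff_const.inner ℝ h1).mul h3) (contDiff_const.inner ℝ h2)

namespace IsCurve

variable {e u : E} {C : Set (E × E)} {γ : ℝ → E × E}

theorem deriv_wt (hγ : IsCurve e u C γ) (h : Orth e u) (hC : ∀ z ∈ C, InT e u z) {t : ℝ}
    (h1 : deriv (fun t => wt e (γ t)) t = 0) (h2 : deriv (fun t => wt u (γ t)) t = 0) : False := by
  have hd : HasDerivAt γ (deriv γ t) t := (hγ.smooth.differentiable (by simp) t).hasDerivAt
  rw [(wt_hasDerivAt e hd).deriv] at h1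
  rw [(wt_hasDerivAt u hd).deriv] at h2
  set v := deriv γ t with hv
  have a1 := congrArg Complex.re h1
  have a2 := congrArg Complex.im h1
  have b1 := congrArg Complex.re h2
  have b2 := congrArg Complex.im h2
  simp only [Complex.add_re, Complex.add_im, Complex.mul_re, Complex.mul_im, Complex.ofReal_re,
    Complex.ofReal_im, Complex.I_re, Complex.I_im, Complex.zero_re, Complex.zero_im, mul_zero,
    mul_one, sub_zero, add_zero, zero_add] at a1 a2 b1 b2
  have h6 : HasDerivAt (fun t => (γ t).1) v.1 t :=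
    (hasFDerivAt_fst (𝕜 := ℝ) (p := γ t)).comp_hasDerivAt t hd
  have h7 : HasDerivAt (fun t => (γ t).2) v.2 t :=
    (hasFDerivAt_snd (𝕜 := ℝ) (p := γ t)).comp_hasDerivAt t hd
  have p1 := h.deriv_in h6 fun t => (hC _ (hγ.mem t)).p1
  have p2 := h.deriv_in h7 fun t => (hC _ (hγ.mem t)).p2
  have v2 : v.2 = 0 := by
    rw [p2, a2, b2]
    simp
  rw [v2, inner_zero_right] at a1 b1
  simp only [mul_zero, zero_div, add_zero] at a1 b1
  have hr : √(1 + ‖(γ t).2‖ ^ 2) ≠ 0 := (Real.sqrt_pos.2 (by positivity)).ne'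
  have a3 := (mul_eq_zero.1 a1).resolve_right hr
  have b3 := (mul_eq_zero.1 b1).resolve_right hr
  have v1 : v.1 = 0 := by
    rw [p1, a3, b3]
    simp
  exact hγ.imm t (Prod.ext v1 v2)

theorem sin_zero (hγ : IsCurve e u C γ) (h : Orth e u) (hC : ∀ z ∈ C, InT e u z) {t : ℝ}
    (h1 : wt u (γ t) = 0) : Real.sin t = 0 := by
  have h2 : γ t = SS u (γ t) := by
    refine h.eq_of_wt (hC _ (hγ.mem t)) (h.InT_SS (hC _ (hγ.mem t))) ?_ ?_
    · rw [h.wt_SS]
    · rw [h.wtu_SS, h1, neg_zero]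
  rw [hγ.sym] at h2
  obtain ⟨k, hk⟩ := hγ.inj _ _ h2
  have h3 : t = k * Real.pi := by linarith
  rw [h3]
  exact Real.sin_int_mul_pi k

/-- **The arc.** -/
theorem exists_arc (hγ : IsCurve e u C γ) (h : Orth e u) (hC : ∀ z ∈ C, InT e u z) :
    ∃ c : ℝ → ℂ, IsArc c ∧ (∀ z ∈ C, ∃ τ ∈ Icc (0 : ℝ) 1, c τ = wt e z) ∧
      ∀ τ ∈ Icc (0 : ℝ) 1, ∃ z ∈ C, wt e z = c τ := by
  set V : ℝ → ℂ := fun t => wt e (γ t) with hV
  set W : ℝ → ℂ := fun t => wt u (γ t) with hW
  have hVs : ContDiff ℝ ∞ V := wt_smooth e hγ.smooth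
  have hWs : ContDiff ℝ ∞ W := wt_smooth u hγ.smooth
  have hVe : ∀ t, V (-t) = V t := fun t => by
    simp only [hV]
    rw [← hγ.sym, h.wt_SS]
  have hVp : ∀ t, V (t + 2 * Real.pi) = V t := fun t => by
    simp only [hV, hγ.per]
  have s1 : Sym fun t => (V t).re := ⟨re_smooth hVs, fun t => by rw [hVe],
    fun t => by rw [hVp]⟩
  have s2 : Sym fun t => (V t).im := ⟨im_smooth hVs, fun t => by rw [hVe],
    fun t => by rw [hVp]⟩
  obtain ⟨c₁, hc₁, hc₁'⟩ := s1.exists_cos
  obtain ⟨c₂, hc₂, hc₂'⟩ := s2.exists_cos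
  set c : ℝ → ℂ := fun t => (c₁ t : ℂ) + (c₂ t : ℂ) * Complex.I with hc
  have hcs : ContDiff ℝ ∞ c := of_re_im hc₁ hc₂
  have hcV : ∀ t, c ((1 - Real.cos t) / 2) = V t := fun t => by
    simp only [hc, hc₁', hc₂']
    exact Complex.re_add_im _
  have hτ : ∀ x ∈ Icc (0 : ℝ) 1, (1 - Real.cos (Real.arccos (1 - 2 * x))) / 2 = x := by
    intro x hx
    rw [Real.cos_arccos (by linarith [hx.2]) (by linarith [hx.1])]
    ring
  have hrel : ∀ t, V t ^ 2 + W t ^ 2 = 1 := fun t => h.wt_rel (hC _ (hγ.mem t))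
  have hVd : ∀ t, HasDerivAt V (deriv V t) t := fun t => (hVs.differentiable (by simp) t).hasDerivAt
  have hWd : ∀ t, HasDerivAt W (deriv W t) t := fun t => (hWs.differentiable (by simp) t).hasDerivAt
  have hrel1 : ∀ t, V t * deriv V t + W t * deriv W t = 0 := by
    intro t
    have d1 := ((hVd t).pow 2).add ((hWd t).pow 2)
    have d2 : (fun t => V t ^ 2 + W t ^ 2) = fun _ => 1 := funext hrel
    have d3 : HasDerivAt (fun t => V t ^ 2 + W t ^ 2) _ t := d1
    rw [d2] at d3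
    have d4 := d3.unique (hasDerivAt_const _ _)
    simp only [Nat.cast_ofNat] at d4
    linear_combination d4 / 2
  have hV1s : ContDiff ℝ ∞ (deriv V) := ((contDiff_infty_iff_deriv (𝕜 := ℝ)).1 hVs).2
  have hW1s : ContDiff ℝ ∞ (deriv W) := ((contDiff_infty_iff_deriv (𝕜 := ℝ)).1 hWs).2
  have hV1d : ∀ t, HasDerivAt (deriv V) (deriv (deriv V) t) t := fun t =>
    (hV1s.differentiable (by simp) t).hasDerivAt
  have hW1d : ∀ t, HasDerivAt (deriv W) (deriv (deriv W) t) t := fun t =>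
    (hW1s.differentiable (by simp) t).hasDerivAt
  have hrel2 : ∀ t, deriv V t * deriv V t + V t * deriv (deriv V) t +
      (deriv W t * deriv W t + W t * deriv (deriv W) t) = 0 := by
    intro t
    have d1 := ((hVd t).mul (hV1d t)).add ((hWd t).mul (hW1d t))
    have d2 : (fun t => V t * deriv V t + W t * deriv W t) = fun _ => 0 := funext hrel1
    have d3 : HasDerivAt (fun t => V t * deriv V t + W t * deriv W t) _ t := d1
    rw [d2] at d3
    exact d3.unique (hasDerivAt_const _ _)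
  refine ⟨c, ⟨hcs, ?_, ?_, ?_, ?_⟩, ?_, ?_⟩
  · have h1 := hcV 0
    rw [Real.cos_zero, sub_self, zero_div] at h1
    rw [h1]
    simp only [hV, hγ.zero]
    apply Complex.ext
    · rw [wt_re]
      simp [h.v1]
    · rw [wt_im]
      simp
  · have h1 := hcV Real.pi
    rw [Real.cos_pi] at h1
    norm_num at h1
    rw [h1]
    simp only [hV, hγ.pi]
    apply Complex.ext
    · rw [wt_re]
      simp [h.v1]
    · rw [wt_im]
      simp
  · intro x hx y hy hxy
    have ex := hτ x hx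
    have ey := hτ y hy
    set t := Real.arccos (1 - 2 * x)
    set t' := Real.arccos (1 - 2 * y)
    rw [← ex, ← ey, hcV, hcV] at hxy
    have key : Real.cos t = Real.cos t' := by
      rcases h.eq_or_of_wt (hC _ (hγ.mem t)) (hC _ (hγ.mem t')) hxy with h1 | h1
      · obtain ⟨k, hk⟩ := hγ.inj _ _ h1
        have h2 : t = t' + k * (2 * Real.pi) := by linarith
        rw [h2, Real.cos_add_int_mul_two_pi]
      · rw [hγ.sym] at h1
        obtain ⟨k, hk⟩ := hγ.inj _ _ h1
        have h2 : t = -t' + k * (2 * Real.pi) := by linarith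
        rw [h2, Real.cos_add_int_mul_two_pi, Real.cos_neg]
    rw [← ex, ← ey, key]
  · intro x hx h0
    have ex := hτ x hx
    set t := Real.arccos (1 - 2 * x)
    have hcd : ∀ y, HasDerivAt c (deriv c y) y := fun y => (hcs.differentiable (by simp) y).hasDerivAt
    have hyd : ∀ t, HasDerivAt (fun t => (1 - Real.cos t) / 2) (Real.sin t / 2) t := by
      intro t
      have := ((Real.hasDerivAt_cos t).const_sub 1).div_const 2
      simpa using this
    have hVe1 : ∀ t, deriv V t = (Real.sin t / 2) • deriv c ((1 - Real.cos t) / 2) := by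
      intro t
      have d1 := (hcd ((1 - Real.cos t) / 2)).scomp t (hyd t)
      have d2 : (c ∘ fun t => (1 - Real.cos t) / 2) = V := funext hcV
      rw [d2] at d1
      exact d1.deriv
    have hV0 : deriv V t = 0 := by rw [hVe1, ex, h0, smul_zero]
    have h1 := hrel1 t
    rw [hV0, mul_zero, zero_add] at h1
    rcases mul_eq_zero.1 h1 with h2 | h2
    · have hsin := hγ.sin_zero h hC h2
      have hc1s : ContDiff ℝ ∞ (deriv c) := ((contDiff_infty_iff_deriv (𝕜 := ℝ)).1 hcs).2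
      have hc1d : HasDerivAt (deriv c) (deriv (deriv c) ((1 - Real.cos t) / 2))
        ((1 - Real.cos t) / 2) := (hc1s.differentiable (by simp) _).hasDerivAt
      have d1 := hc1d.scomp t (hyd t)
      have d2 := ((Real.hasDerivAt_sin t).div_const 2).smul d1
      have d3 : deriv V = fun t => (Real.sin t / 2) • deriv c ((1 - Real.cos t) / 2) :=
        funext hVe1
      have d4 : HasDerivAt (deriv V) 0 t := by
        rw [d3]
        refine HasDerivAt.congr_deriv d2 ?_
        simp only [Function.comp_apply]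
        rw [ex, h0, hsin]
        simp
      have h3 := hrel2 t
      rw [d4.deriv, hV0, h2] at h3
      simp only [mul_zero, zero_mul, zero_add, add_zero] at h3
      exact hγ.deriv_wt h hC hV0 (mul_self_eq_zero.1 h3)
    · exact hγ.deriv_wt h hC hV0 h2
  · intro z hz
    obtain ⟨t, rfl⟩ := hγ.surj z hz
    exact ⟨(1 - Real.cos t) / 2, ⟨by linarith [Real.cos_le_one t], by
      linarith [Real.neg_one_le_cos t]⟩, hcV t⟩
  · intro τ hτ'
    refine ⟨γ (Real.arccos (1 - 2 * τ)), hγ.mem _, ?_⟩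
    change V (Real.arccos (1 - 2 * τ)) = c τ
    rw [← hcV, hτ τ hτ']

end IsCurve

end Vale.Agent.P220.R2.H180
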