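import Vale.Agent.P220.R2.H180.Slice
import Vale.Agent.P220.R2.H57.B.Orient
import Vale.Agent.P220.R2.H252.G.Final

/-!
# The symmetric parametrization of the slice
-/

open Set Filter Topology
open scoped ContDiff

set_option linter.unusedSectionVars false

namespace Vale.Agent.P220.R2.H180

open H57

variable {E : Type} [NormedAddCommGroup E] [InnerProductSpace ℝ E] [FiniteDimensional ℝ E]

/-- the auxiliary data (as `exists_base`, with the field) -/
theorem exists_base' {n : ℕ} {Q : Set E} {L : Set (E × E)} {X : E → E}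
    (hQ : IsClosedManifold n Q) (hL : IsClosedExactLagrangian n Q L)
    (h : IsMomentumEmbedded Q L X) :
    ∃ D : Base E, D.Q = Q ∧ D.L = L ∧ ∀ q ∈ Q, D.X q = X q := by
  obtain ⟨UQ, r, hr, dQ⟩ := exists_ret hQ.sub hQ.compact
  obtain ⟨UL, ρ, hρ, dL⟩ := exists_ret hL.mfd hL.compact
  obtain ⟨B, hB⟩ := hQ.compact.isBounded.exists_norm_le
  obtain ⟨χ, hχ, hχc, hχ1⟩ := exists_cutoff (F := E) B
  set X' : E → E := fun x => χ x • X x with hX'
  have hX's : ContDiff ℝ ∞ X' := hχ.smul h.smooth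
  have hX'c : HasCompactSupport X' := hχc.smul_right
  have hXX : ∀ q ∈ Q, X' q = X q := by
    intro q hq
    simp only [hX']
    rw [hχ1 q (hB q hq), one_smul]
  have tX : ∀ q ∈ Q, X' q ∈ Tn r q := by
    intro q hq
    rw [hXX q hq, ← hr.mem_Tan hq]
    exact h.tangent q hq
  obtain ⟨φ, hφ⟩ := exists_flow_compact hX's hX'c
  obtain ⟨f, hf, hex⟩ := hL.exact
  have hLQ : ∀ z ∈ L, z.1 ∈ Q := fun z hz => (hL.sub hz).1
  refine ⟨{
    n := n
    Q := Q
    UQ := UQ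
    r := r
    hQ := hr
    cQ := hQ.compact
    dQ := dQ
    connQ := hQ.conn
    L := L
    UL := UL
    ρ := ρ
    hL := hρ
    cL := hL.compact
    dL := dL
    ne := hL.nonempty
    sub := hLQ
    sub2 := fun z hz => (hr.mem_Tan (hLQ z hz)).1 (hL.sub hz).2
    X := X'
    hX := hX's
    cX := hX'c
    tX := tX
    φ := φ
    hφ := hφ
    uniq := ?_
    imm := ?_
    f := f
    hf := hf
    exact := ?_ }, rfl, rfl, hXX⟩
  · intro z hz z' hz' h1 h2
    rw [hXX _ (hLQ z hz)] at h2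
    exact h.inj z hz z' hz' h1 h2
  · intro z hz v hv hv1 hv2
    rw [hXX _ (hLQ z hz)] at hv2
    exact h.imm z hz v ((hρ.mem_Tan hz).2 hv) hv1 hv2
  · intro z hz v hv
    exact hex z hz v ((hρ.mem_Tan hz).2 hv)

/-- the reflection `u ↦ -u` on `T*S` -/
noncomputable def SS (u : E) : (E × E) →L[ℝ] (E × E) :=
  ((Refl u) : E →L[ℝ] E).prodMap ((Refl u) : E →L[ℝ] E)

theorem SS_apply (u : E) (z : E × E) : SS u z = (Refl u z.1, Refl u z.2) := rfl

theorem SS_SS (u : E) (z : E × E) : SS u (SS u z) = z := by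
  simp only [SS_apply]
  unfold Refl
  rw [Submodule.reflection_reflection, Submodule.reflection_reflection]

namespace Orth

variable {e u : E} (h : Orth e u)

include h

theorem e_Refl (x : E) : inner ℝ e (Refl u x) = (inner ℝ e x : ℝ) := by
  rw [Refl_apply h.w1, inner_sub_right, inner_smul_right, h.vw]
  ring

theorem u_Refl (x : E) : inner ℝ u (Refl u x) = (-inner ℝ u x : ℝ) := by
  rw [Refl_apply h.w1, inner_sub_right, inner_smul_right, h.ww]
  ring

theorem Refl_in {x : E} (hx : InPl e u x) : InPl e u (Refl u x) := by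
  rw [Refl_apply h.w1]
  have h1 : InPl e u (-(2 * inner ℝ u x : ℝ) • u) :=
    InPl.smul h.v1 h.w1 h.vw 0 (-(2 * inner ℝ u x : ℝ)) (by simp)
  have h2 := hx.add h1
  rwa [neg_smul, ← sub_eq_add_neg] at h2

theorem Refl_e : Refl u e = e := by
  rw [Refl_apply h.w1, h.wv]
  simp

theorem XF_Refl (x : E) : XF e u (Refl u x) = -Refl u (XF e u x) := by
  rw [Refl_apply h.w1 (XF e u x)]
  unfold XF
  rw [h.e_Refl, h.u_Refl, inner_sub_right, inner_smul_right, inner_smul_right, h.ww, h.wv]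
  module

theorem XF_XF {x : E} (hx : InPl e u x) : XF e u (XF e u x) = -x := by
  have h1 : inner ℝ e (XF e u x) = (-inner ℝ u x : ℝ) := by
    unfold XF
    rw [inner_sub_right, inner_smul_right, inner_smul_right, h.vv, h.vw]
    ring
  have h2 : inner ℝ u (XF e u x) = (inner ℝ e x : ℝ) := by
    unfold XF
    rw [inner_sub_right, inner_smul_right, inner_smul_right, h.ww, h.wv]
    ring
  change (inner ℝ e (XF e u x) : ℝ) • u - (inner ℝ u (XF e u x) : ℝ) • e = -x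
  rw [h1, h2]
  conv_rhs => rw [hx]
  module

theorem XF_lin (a b : ℝ) (x y : E) : XF e u (a • x + b • y) = a • XF e u x + b • XF e u y := by
  unfold XF
  simp only [inner_add_right, inner_smul_right]
  module

/-- the flow on the circle -/
theorem flow {X : E → E} {φ : ℝ → E → E} (hφ : IsFlow X φ) (hX : ∀ q ∈ Circ e u, X q = XF e u q)
    {q : E} (hq : q ∈ Circ e u) (t : ℝ) : φ t q = Real.cos t • q + Real.sin t • XF e u q := by
  obtain ⟨h1, h2⟩ := h.mem_Circ.1 hq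
  have h3 : InPl e u (XF e u q) := h.XF_in q
  have hXn : ‖XF e u q‖ = 1 := by
    rw [← sq_eq_sq₀ (norm_nonneg _) zero_le_one, ← h.sq_sum h3]
    have h4 := h.sq_sum h2
    rw [h1] at h4
    unfold XF
    simp only [inner_sub_right, inner_smul_right, h.vv, h.ww, h.vw, h.wv]
    linear_combination h4
  have hmem : ∀ t : ℝ, Real.cos t • q + Real.sin t • XF e u q ∈ Circ e u := by
    intro t
    refine h.mem_Circ.2 ⟨?_, (h2.smul' _).add (h3.smul' _)⟩
    rw [← sq_eq_sq₀ (norm_nonneg _) zero_le_one, norm_add_sq_real, norm_smul, norm_smul,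
      inner_smul_left, inner_smul_right, h.orth_XF, h1, hXn, Real.norm_eq_abs, Real.norm_eq_abs,
      mul_pow, mul_pow, sq_abs, sq_abs]
    have := Real.sin_sq_add_cos_sq t
    simp
  have key := hφ.uniq (fun t => Real.cos t • q + Real.sin t • XF e u q) (fun t => by
    rw [hX _ (hmem t), h.XF_lin, h.XF_XF h2]
    have h5 := ((Real.hasDerivAt_cos t).smul_const q).add
      ((Real.hasDerivAt_sin t).smul_const (XF e u q))
    refine h5.congr_deriv ?_
    module) t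
  simp only [Real.cos_zero, Real.sin_zero, one_smul, zero_smul, add_zero] at key
  exact key.symm

theorem e_circ : e ∈ Circ e u := h.mem_Circ.2 ⟨h.v1, InPl.smul h.v1 h.w1 h.vw 1 0 (by simp)⟩

theorem XF_e : XF e u e = u := by
  unfold XF
  rw [h.vv, h.wv]
  simp

/-- a fixed point of the reflection lies over a pole of the zero section -/
theorem fix_pole {z : E × E} (h1 : ‖z.1‖ = 1) (h2 : InPl e u z.1) (h3 : InPl e u z.2)
    (h4 : inner ℝ z.1 z.2 = (0 : ℝ)) (hS : SS u z = z) : z = (e, 0) ∨ z = (-e, 0) := by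
  rw [SS_apply, Prod.ext_iff] at hS
  obtain ⟨s1, s2⟩ := hS
  simp only at s1 s2
  have a1 : (inner ℝ u z.1 : ℝ) = 0 := by
    have := h.u_Refl z.1
    rw [s1] at this
    linarith
  have a2 : (inner ℝ u z.2 : ℝ) = 0 := by
    have := h.u_Refl z.2
    rw [s2] at this
    linarith
  have h5 := h.sq_sum h2
  rw [h1, a1] at h5
  have h6 : (inner ℝ e z.1 : ℝ) ^ 2 = 1 ^ 2 := by linarith
  rw [h.inner_in h2 h3, a1, zero_mul, add_zero] at h4
  have h7 : (inner ℝ e z.2 : ℝ) = 0 := by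
    rcases mul_eq_zero.1 h4 with h8 | h8
    · rw [h8] at h6
      norm_num at h6
    · exact h8
  have h8 : z.2 = 0 := by
    rw [h3, a2, h7]
    simp
  rcases sq_eq_sq_iff_eq_or_eq_neg.1 h6 with h9 | h9
  · left
    refine Prod.ext ?_ h8
    rw [h2, a1, h9]
    simp
  · right
    refine Prod.ext ?_ h8
    rw [h2, a1, h9]
    simp

end Orth

/-- The data of the symmetric curve. -/
structure IsCurve (e u : E) (C : Set (E × E)) (γ : ℝ → E × E) : Prop where
  smooth : ContDiff ℝ ∞ γ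
  imm : ∀ t, deriv γ t ≠ 0
  mem : ∀ t, γ t ∈ C
  surj : ∀ z ∈ C, ∃ t, γ t = z
  sym : ∀ t, SS u (γ t) = γ (-t)
  per : ∀ t, γ (t + 2 * Real.pi) = γ t
  inj : ∀ t t', γ t = γ t' → ∃ k : ℤ, t - t' = k * (2 * Real.pi)
  zero : γ 0 = (e, 0)
  pi : γ Real.pi = (-e, 0)

/-! ### the symmetry of the leafwise flow -/

section

variable {e u : E} (h : Orth e u) {D : Base E} (Λ : D.Leaf) (hQ : D.Q = Circ e u)
  (hX : ∀ q ∈ Circ e u, D.X q = XF e u q) (hS : ∀ z ∈ D.L, SS u z ∈ D.L)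

include h hQ hX hS

theorem leaf_in {z : E × E} (hz : z ∈ D.L) : ‖z.1‖ = 1 ∧ InPl e u z.1 ∧ InPl e u z.2 ∧
    inner ℝ z.1 z.2 = (0 : ℝ) := by
  have h1 : z.1 ∈ Circ e u := hQ ▸ D.sub z hz
  obtain ⟨h2, h3⟩ := h.mem_Circ.1 h1
  have h4 : z.2 ∈ Tan (Circ e u) z.1 := by
    have h5 := D.sub2 z hz
    rw [← D.hQ.mem_Tan (D.sub z hz), hQ] at h5
    exact h5
  obtain ⟨h5, h6⟩ := (h.tan_Circ h1).1 h4
  exact ⟨h2, h3, h5, h6⟩

theorem h_SS {z : E × E} (hz : z ∈ D.L) : D.h (SS u z) = -D.h z := by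
  have h1 : z.1 ∈ Circ e u := hQ ▸ D.sub z hz
  have h2 : (SS u z).1 ∈ Circ e u := hQ ▸ D.sub _ (hS z hz)
  unfold Base.h
  rw [hX _ h1, hX _ h2]
  change (inner ℝ (Refl u z.2) (XF e u (Refl u z.1)) : ℝ) = _
  rw [h.XF_Refl, inner_neg_right, (Refl u).inner_map_map]

theorem lf_SS {z : E × E} (hz : z ∈ D.L) : D.Lf (SS u z) (-Λ.u z) (SS u (Λ.Z z)) := by
  have h1 : z.1 ∈ Circ e u := hQ ▸ D.sub z hz
  have h2 : (SS u z).1 ∈ Circ e u := hQ ▸ D.sub _ (hS z hz)
  have hZ := Λ.Z_tan hz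
  rw [← D.hL.mem_Tan hz] at hZ
  obtain ⟨c, hc, hcS, h0, hdc⟩ := hZ
  have h3 : HasDerivAt c (Λ.Z z) 0 := by
    rw [← hdc]
    exact (hc.differentiable (by simp) 0).hasDerivAt
  have h4 : HasDerivAt (fun t => SS u (c t)) (SS u (Λ.Z z)) 0 :=
    (SS u).hasFDerivAt.comp_hasDerivAt (0 : ℝ) h3
  refine ⟨?_, ?_, ?_⟩
  · have := D.hL.curve_tangent (Eventually.of_forall fun t => hS _ (hcS t)) h4
    rwa [h0] at this
  · change Refl u (Λ.Z z).1 = (-(Λ.u z).1) • D.X (SS u z).1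
    rw [Λ.Z_fst hz, map_smul, hX _ h1, hX _ h2]
    change (Λ.u z).1 • Refl u (XF e u z.1) = (-(Λ.u z).1) • XF e u (Refl u z.1)
    rw [h.XF_Refl]
    module
  · have hh : ∀ y, HasFDerivAt D.h (fderiv ℝ D.h y) y := fun y =>
      (D.h_smooth.differentiable (by simp) y).hasFDerivAt
    have h5 : HasDerivAt (fun t => D.h (SS u (c t))) (fderiv ℝ D.h (SS u (c 0)) (SS u (Λ.Z z))) 0 :=
      (hh _).comp_hasDerivAt (0 : ℝ) h4
    have h6 : HasDerivAt (fun t => D.h (c t)) (fderiv ℝ D.h (c 0) (Λ.Z z)) 0 :=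
      (hh _).comp_hasDerivAt (0 : ℝ) h3
    have h7 : (fun t => D.h (SS u (c t))) = fun t => -D.h (c t) := by
      funext t
      exact h_SS h hQ hX hS (hcS t)
    rw [h7] at h5
    have h8 := h5.unique h6.neg
    rw [h0, Λ.Z_h hz] at h8
    exact h8

/-- the sign -/
theorem pm_SS {z : E × E} (hz : z ∈ D.L) :
    (Λ.u (SS u z) = Λ.u z ∧ SS u (Λ.Z z) = -Λ.Z (SS u z)) ∨
      (Λ.u (SS u z) = -Λ.u z ∧ SS u (Λ.Z z) = Λ.Z (SS u z)) := by
  have hSz := hS z hz
  obtain ⟨c, hc, hc'⟩ := (Λ.lf _ hSz).prop hSz (lf_SS h Λ hQ hX hS hz) (Λ.unit _ hSz)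
  have h1 := Λ.unit z hz
  have h2 := Λ.unit _ hSz
  have h3 : -(Λ.u z).1 = c * (Λ.u (SS u z)).1 := congrArg Prod.fst hc
  have h4 : -(Λ.u z).2 = c * (Λ.u (SS u z)).2 := congrArg Prod.snd hc
  have h5 : c ^ 2 = 1 ^ 2 := by
    have : (c * (Λ.u (SS u z)).1) ^ 2 + (c * (Λ.u (SS u z)).2) ^ 2 = 1 := by
      rw [← h3, ← h4]
      linarith
    nlinarith
  rcases sq_eq_sq_iff_eq_or_eq_neg.1 h5 with h6 | h6
  · right
    subst h6
    rw [one_smul] at hc hc'
    exact ⟨hc.symm, hc'⟩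
  · left
    subst h6
    rw [neg_smul, one_smul, neg_inj] at hc
    rw [neg_smul, one_smul] at hc'
    exact ⟨hc.symm, hc'⟩

/-- the reflection reverses the leafwise flow -/
theorem neg_SS {z : E × E} (hz : z ∈ D.L) :
    Λ.u (SS u z) = Λ.u z ∧ SS u (Λ.Z z) = -Λ.Z (SS u z) := by
  rcases pm_SS h Λ hQ hX hS hz with h1 | h1
  · exact h1
  exfalso
  -- the sign is constant on the orbit
  set w : ℝ → ℝ := fun σ => (Λ.u (SS u (Λ.ζ σ z))).1 * (Λ.u (Λ.ζ σ z)).1 +
    (Λ.u (SS u (Λ.ζ σ z))).2 * (Λ.u (Λ.ζ σ z)).2 with hw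
  have hζc : Continuous fun σ => Λ.ζ σ z :=
    Λ.cont_ζ.comp (continuous_id.prodMk continuous_const)
  have hwc : Continuous w := by
    have h2 : Continuous fun σ => Λ.u (Λ.ζ σ z) := Λ.cont_u.comp hζc
    have h3 : Continuous fun σ => Λ.u (SS u (Λ.ζ σ z)) :=
      Λ.cont_u.comp ((SS u).continuous.comp hζc)
    exact ((continuous_fst.comp h3).mul (continuous_fst.comp h2)).add
      ((continuous_snd.comp h3).mul (continuous_snd.comp h2))
  have hwpm : ∀ σ, (w σ = 1 ∧ Λ.u (SS u (Λ.ζ σ z)) = Λ.u (Λ.ζ σ z)) ∨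
      (w σ = -1 ∧ Λ.u (SS u (Λ.ζ σ z)) = -Λ.u (Λ.ζ σ z) ∧
        SS u (Λ.Z (Λ.ζ σ z)) = Λ.Z (SS u (Λ.ζ σ z))) := by
    intro σ
    have hm := Λ.ζ_mem hz σ
    have hu := Λ.unit _ hm
    rcases pm_SS h Λ hQ hX hS hm with h2 | h2
    · left
      refine ⟨?_, h2.1⟩
      simp only [hw, h2.1]
      linarith
    · right
      refine ⟨?_, h2⟩
      simp only [hw, h2.1, Prod.fst_neg, Prod.snd_neg]
      linarith
  have hw0 : w 0 = -1 := by
    have hu := Λ.unit _ hz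
    simp only [hw, Λ.hζ.zero, h1.1, Prod.fst_neg, Prod.snd_neg]
    linarith
  have hwall : ∀ σ, Λ.u (SS u (Λ.ζ σ z)) = -Λ.u (Λ.ζ σ z) ∧
        SS u (Λ.Z (Λ.ζ σ z)) = Λ.Z (SS u (Λ.ζ σ z)) := by
    intro σ
    rcases hwpm σ with h2 | h2
    · exfalso
      have hiv := intermediate_value_uIcc (a := 0) (b := σ) hwc.continuousOn
      have hmem : (0 : ℝ) ∈ uIcc (w 0) (w σ) := by
        rw [hw0, h2.1, uIcc_of_le (by norm_num)]
        constructor <;> norm_num
      obtain ⟨t, -, ht⟩ := hiv hmem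
      rcases hwpm t with h3 | h3
      · rw [ht] at h3
        exact zero_ne_one h3.1
      · rw [ht] at h3
        norm_num at h3
    · exact h2.2
  have hflow : ∀ σ, SS u (Λ.ζ σ z) = Λ.ζ σ (SS u z) := by
    intro σ
    have h2 := Λ.hζ.uniq (fun σ => SS u (Λ.ζ σ z)) (fun t => by
      have h3 : HasDerivAt (fun σ => SS u (Λ.ζ σ z)) (SS u (Λ.Z (Λ.ζ t z))) t :=
        (SS u).hasFDerivAt.comp_hasDerivAt t (Λ.hζ.deriv t z)
      rw [(hwall t).2] at h3
      exact h3) σ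
    simp only [Λ.hζ.zero] at h2
    exact h2
  have hT : ∀ σ, Λ.T σ (SS u z) = -Λ.T σ z := by
    intro σ
    unfold Base.Leaf.T
    rw [← intervalIntegral.integral_neg]
    refine intervalIntegral.integral_congr fun s _ => ?_
    rw [← hflow, (hwall s).1]
    rfl
  obtain ⟨S, hS0, hdrift⟩ := Λ.drift
  have h2 := hdrift z hz S le_rfl
  have h3 := hdrift _ (hS z hz) S le_rfl
  rw [hT] at h3
  linarith

theorem flow_SS {z : E × E} (hz : z ∈ D.L) (σ : ℝ) : SS u (Λ.ζ σ z) = Λ.ζ (-σ) (SS u z) := by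
  have h2 := Λ.hζ.uniq (fun σ => SS u (Λ.ζ (-σ) z)) (fun t => by
    have h4 : HasDerivAt (fun σ => Λ.ζ (-σ) z) ((-1 : ℝ) • Λ.Z (Λ.ζ (-t) z)) t :=
      (Λ.hζ.deriv (-t) z).scomp t (hasDerivAt_neg t)
    have h3 : HasDerivAt (fun σ => SS u (Λ.ζ (-σ) z)) (SS u ((-1 : ℝ) • Λ.Z (Λ.ζ (-t) z))) t :=
      (SS u).hasFDerivAt.comp_hasDerivAt t h4
    rw [map_smul, (neg_SS h Λ hQ hX hS (Λ.ζ_mem hz (-t))).2, neg_smul, one_smul, neg_neg] at h3
    exact h3) (-σ)
  simp only [neg_neg, neg_zero, Λ.hζ.zero] at h2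
  exact h2

theorem T_SS {z : E × E} (hz : z ∈ D.L) (σ : ℝ) : Λ.T (-σ) (SS u z) = -Λ.T σ z := by
  have h1 : ∀ s, (Λ.u (Λ.ζ s (SS u z))).1 = (Λ.u (Λ.ζ (-s) z)).1 := by
    intro s
    have h2 := flow_SS h Λ hQ hX hS hz (-s)
    rw [neg_neg] at h2
    rw [← h2, (neg_SS h Λ hQ hX hS (Λ.ζ_mem hz (-s))).1]
  unfold Base.Leaf.T
  simp only [h1]
  rw [intervalIntegral.integral_comp_neg (fun s => (Λ.u (Λ.ζ s z)).1), neg_neg, neg_zero,
    intervalIntegral.integral_symm]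

include Λ

/-- the pole `(e, 0)` lies on `L` -/
theorem pole_mem : (e, 0) ∈ D.L := by
  obtain ⟨z, hz, hz1⟩ := Base.surj Λ e (hQ ▸ h.e_circ)
  have hSz := hS z hz
  have h0 : (SS u z).1 = D.φ 0 z.1 := by
    rw [D.hφ.zero]
    change Refl u z.1 = z.1
    rw [hz1, h.Refl_e]
  obtain ⟨σ, hσ, hT⟩ := Λ.one_leaf hz hSz h0
  set y : E × E := Λ.ζ (σ / 2) z with hy
  have hyL : y ∈ D.L := Λ.ζ_mem hz _
  have hSy : SS u y = y := by
    rw [hy, flow_SS h Λ hQ hX hS hz, ← hσ, ← Λ.hζ.add]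
    congr 1
    ring
  have h1 := Λ.T_add hz (σ / 2) (σ / 2)
  have h2 := Λ.T_add hz (-(σ / 2)) (σ / 2)
  have h3 := T_SS h Λ hQ hX hS hyL (σ / 2)
  rw [hSy] at h3
  rw [neg_add_cancel, Λ.T_zero, ← hy, h3] at h2
  rw [add_halves, hT, ← hy] at h1
  have h4 : Λ.T (σ / 2) z = 0 := by linarith
  have h5 : y.1 = e := by
    rw [hy, Λ.base hz, h4, D.hφ.zero, hz1]
  obtain ⟨a1, a2, a3, a4⟩ := leaf_in h hQ hX hS hyL
  rcases h.fix_pole a1 a2 a3 a4 hSy with h6 | h6
  · rwa [← h6]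
  · exfalso
    rw [h6] at h5
    have h7 : -e = e := h5
    have h8 := congrArg (fun x => (inner ℝ e x : ℝ)) h7
    simp only [inner_neg_right, h.vv] at h8
    norm_num at h8

/-- **The symmetric parametrization.** -/
theorem exists_curve : ∃ γ, IsCurve e u D.L γ := by
  have hp := pole_mem h Λ hQ hX hS
  set p : E × E := (e, 0) with hpdef
  have hec := h.e_circ
  have hφ : ∀ q ∈ Circ e u, ∀ t, D.φ t q = Real.cos t • q + Real.sin t • XF e u q :=
    fun q hq t => h.flow D.hφ hX hq t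
  have hSp : SS u p = p := by
    rw [hpdef, SS_apply]
    simp only [h.Refl_e, map_zero]
  -- the period
  obtain ⟨P, hP, hTP⟩ := Λ.one_leaf hp hp (t := 2 * Real.pi) (by
    rw [hφ _ hec, Real.cos_two_pi, Real.sin_two_pi, one_smul, zero_smul, add_zero])
  have hP0 : P ≠ 0 := by
    rintro rfl
    rw [Λ.T_zero] at hTP
    have := Real.pi_pos
    linarith
  have hper : Function.Periodic (fun σ => Λ.ζ σ p) P := by
    intro σ
    beta_reduce
    rw [Λ.hζ.add, hP]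
  have hTper : Function.Periodic (fun σ => Λ.T σ p - σ * (2 * Real.pi / P)) P := by
    intro σ
    beta_reduce
    rw [Λ.T_add hp, hTP, hP]
    field_simp
    ring
  have hTk : ∀ k : ℤ, Λ.T (k * P) p = k * (2 * Real.pi) := by
    intro k
    have h1 := hTper.int_mul k 0
    beta_reduce at h1
    rw [zero_add, Λ.T_zero, zero_mul, sub_zero] at h1
    have h2 : (k * P) * (2 * Real.pi / P) = k * (2 * Real.pi) := by field_simp
    rw [h2] at h1
    linarith
  have hζk : ∀ k : ℤ, Λ.ζ (k * P) p = p := by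
    intro k
    have h1 := hper.int_mul k 0
    beta_reduce at h1
    rwa [zero_add, Λ.hζ.zero] at h1
  -- returns
  have hret : ∀ σ, Λ.ζ σ p = p → ∃ k : ℤ, σ = k * P := by
    intro σ hσ
    have h1 := Λ.base hp σ
    rw [hσ, hφ _ hec] at h1
    have h2 := congrArg (fun x => (inner ℝ e x : ℝ)) h1
    have hpe : p.1 = e := rfl
    rw [hpe, h.XF_e] at h2
    simp only [inner_add_right, inner_smul_right, h.vv, h.vw, mul_one, mul_zero, add_zero] at h2
    obtain ⟨k, hk⟩ := (Real.cos_eq_one_iff _).1 h2.symm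
    refine ⟨k, ?_⟩
    by_contra hne
    have h3 : σ - k * P ≠ 0 := sub_ne_zero.2 hne
    have h4 := Λ.T_add hp (σ - k * P) (k * P)
    rw [sub_add_cancel, hTk, hζk, ← hk] at h4
    have h5 : Λ.T (σ - k * P) p = 0 := by linarith
    refine Λ.no_return hp h3 h5 ?_
    have h6 : Λ.ζ (σ - k * P) p = p := by
      have h7 := Λ.hζ.add (σ - k * P) (k * P) p
      rw [sub_add_cancel, hζk, hσ] at h7
      exact h7.symm
    rw [h6]
  set a : ℝ := P / (2 * Real.pi) with ha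
  have hpi : (2 * Real.pi) ≠ 0 := by positivity
  have ha0 : a ≠ 0 := div_ne_zero hP0 hpi
  have ha2 : a * (2 * Real.pi) = P := by rw [ha]; field_simp
  have hZne : ∀ z ∈ D.L, Λ.Z z ≠ 0 := by
    intro z hz h0
    have h1 := Λ.Z_fst hz
    have h2 := Λ.Z_h hz
    rw [h0] at h1 h2
    rw [map_zero] at h2
    have h3 : D.X z.1 ≠ 0 := by
      obtain ⟨a1, a2, -, -⟩ := leaf_in h hQ hX hS hz
      rw [hX _ (hQ ▸ D.sub z hz)]
      exact h.XF_ne a2 a1
    have h4 : (Λ.u z).1 = 0 := by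
      have h5 : (0 : E) = (Λ.u z).1 • D.X z.1 := h1
      exact (smul_eq_zero.1 h5.symm).resolve_right h3
    have h5 := Λ.unit z hz
    rw [h4, ← h2] at h5
    norm_num at h5
  have hd : ∀ t, HasDerivAt (fun t => Λ.ζ (a * t) p) (a • Λ.Z (Λ.ζ (a * t) p)) t := by
    intro t
    have h1 : HasDerivAt (fun t : ℝ => a * t) a t := by simpa using (hasDerivAt_id t).const_mul a
    exact (Λ.hζ.deriv (a * t) p).scomp t h1
  refine ⟨fun t => Λ.ζ (a * t) p, ?_, ?_, ?_, ?_, ?_, ?_, ?_, ?_, ?_⟩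
  · exact Λ.hζ.smooth.comp ((contDiff_const.mul contDiff_id).prodMk contDiff_const)
  · intro t
    rw [(hd t).deriv]
    exact smul_ne_zero ha0 (hZne _ (Λ.ζ_mem hp _))
  · intro t
    exact Λ.ζ_mem hp _
  · intro z hz
    obtain ⟨a1, a2, -, -⟩ := leaf_in h hQ hX hS hz
    have h1 := h.sq_sum a2
    rw [a1] at h1
    set w : ℂ := ⟨inner ℝ e z.1, inner ℝ u z.1⟩ with hw
    have hn : ‖w‖ = 1 := by
      rw [← sq_eq_sq₀ (norm_nonneg _) zero_le_one, ← Complex.normSq_eq_norm_sq,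
        Complex.normSq_apply]
      simp only [hw]
      linarith
    have hw0 : w ≠ 0 := by
      intro h4
      rw [h4, norm_zero] at hn
      exact zero_ne_one hn
    obtain ⟨σ, hσ, -⟩ := Λ.one_leaf hp hz (t := Complex.arg w) (by
      rw [hφ _ hec, h.XF_e, Complex.cos_arg hw0, Complex.sin_arg, hn, div_one, div_one]
      exact a2)
    refine ⟨σ / a, ?_⟩
    beta_reduce
    rw [mul_div_cancel₀ _ ha0, hσ]
  · intro t
    beta_reduce
    rw [flow_SS h Λ hQ hX hS hp, hSp]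
    congr 1
    ring
  · intro t
    beta_reduce
    rw [mul_add, ha2]
    exact hper _
  · intro t t' ht
    beta_reduce at ht
    obtain ⟨k, hk⟩ := hret (a * t - a * t') (by
      rw [sub_eq_neg_add, Λ.hζ.add, ht, Λ.hζ.neg_left])
    refine ⟨k, ?_⟩
    have h1 : a * (t - t') = a * (k * (2 * Real.pi)) := by
      rw [mul_sub, hk, ← ha2]
      ring
    exact mul_left_cancel₀ ha0 h1
  · beta_reduce
    rw [mul_zero, Λ.hζ.zero]
  · beta_reduce
    have h1 : a * Real.pi = P / 2 := by rw [ha]; field_simp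
    rw [h1]
    set y := Λ.ζ (P / 2) p with hy
    have hyL : y ∈ D.L := Λ.ζ_mem hp _
    have hSy : SS u y = y := by
      rw [hy, flow_SS h Λ hQ hX hS hp, hSp]
      have h2 := hper (-(P / 2))
      beta_reduce at h2
      rw [← h2]
      congr 1
      ring
    obtain ⟨a1, a2, a3, a4⟩ := leaf_in h hQ hX hS hyL
    rcases h.fix_pole a1 a2 a3 a4 hSy with h6 | h6
    · exfalso
      obtain ⟨k, hk⟩ := hret (P / 2) h6
      have h7 : P * (1 - 2 * (k : ℝ)) = 0 := by linarith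
      rcases mul_eq_zero.1 h7 with h8 | h8
      · exact hP0 h8
      · have h9 : (1 : ℤ) = 2 * k := by
          have : (1 : ℝ) = 2 * (k : ℝ) := by linarith
          exact_mod_cast this
        omega
    · exact h6

end

end Vale.Agent.P220.R2.H180
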