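import Vale.Agent.P220.R2.H180.Sphere
import Vale.Agent.P220.R2.H180.Fam
import Vale.Agent.P220.R2.H481.HamExt

/-!
# The exact isotopy of the zero section given by a family of arcs
-/

open Set Filter Topology
open scoped ContDiff

set_option linter.unusedSectionVars false

namespace Vale.Agent.P220.R2.H180

open H57

variable {E : Type} [NormedAddCommGroup E] [InnerProductSpace ℝ E] [FiniteDimensional ℝ E]

/-- the component orthogonal to `e` -/
noncomputable def pr (e x : E) : E := x - (inner ℝ e x : ℝ) • e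

/-- the height -/
noncomputable def tau (e x : E) : ℝ := (1 - inner ℝ e x) / 2

/-- `x` lies in the plane of the orthonormal vectors `e` and `u` -/
def InPl (e u x : E) : Prop := x = (inner ℝ e x : ℝ) • e + (inner ℝ u x : ℝ) • u

/-- the complex height -/
noncomputable def wt (e : E) (z : E × E) : ℂ :=
  ((inner ℝ e z.1 * √(1 + ‖z.2‖ ^ 2) : ℝ) : ℂ) + ((inner ℝ e z.2 : ℝ) : ℂ) * Complex.I

section

variable {e : E} (he : ‖e‖ = 1)

include he

theorem e_e : inner ℝ e e = (1 : ℝ) := by rw [real_inner_self_eq_norm_sq, he]; norm_num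

theorem e_pr (x : E) : inner ℝ e (pr e x) = (0 : ℝ) := by
  unfold pr
  rw [inner_sub_right, inner_smul_right, e_e he]
  ring

theorem pr_e (x : E) : inner ℝ (pr e x) e = (0 : ℝ) := by
  rw [real_inner_comm]
  exact e_pr he x

theorem pr_pr (x y : E) : inner ℝ (pr e x) (pr e y) = (inner ℝ x y - inner ℝ e x * inner ℝ e y : ℝ) := by
  unfold pr
  rw [inner_sub_left, inner_sub_right, inner_sub_right, inner_smul_left, inner_smul_right,
    inner_smul_left, inner_smul_right, e_e he, real_inner_comm e x]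
  simp
  ring

theorem norm_pr_sq {q : E} (hq : ‖q‖ = 1) : ‖pr e q‖ ^ 2 = 4 * tau e q * (1 - tau e q) := by
  rw [← real_inner_self_eq_norm_sq, pr_pr he, real_inner_self_eq_norm_sq, hq]
  unfold tau
  ring

theorem tau_mem {q : E} (hq : ‖q‖ = 1) : tau e q ∈ Icc (0 : ℝ) 1 := by
  have h1 := abs_real_inner_le_norm e q
  rw [he, hq, mul_one, abs_le] at h1
  unfold tau
  constructor <;> linarith [h1.1, h1.2]

end

theorem decomp (e q : E) : q = (1 - 2 * tau e q) • e + pr e q := by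
  unfold tau pr
  have : (1 - 2 * ((1 - inner ℝ e q) / 2) : ℝ) = inner ℝ e q := by ring
  rw [this]
  abel

/-- real part -/
noncomputable def xa (e : E) (C b : ℝ × ℝ → ℂ) (x : ℝ × (E × E)) : E :=
  (C (x.1, tau e x.2.1)).re • e + (b (x.1, tau e x.2.1)).re • pr e x.2.1

/-- imaginary part -/
noncomputable def xy (e : E) (C b : ℝ × ℝ → ℂ) (x : ℝ × (E × E)) : E :=
  (C (x.1, tau e x.2.1)).im • e + (b (x.1, tau e x.2.1)).im • pr e x.2.1

/-- the isotopy -/
noncomputable def iso (e : E) (G : ℝ → ℝ) (C b : ℝ × ℝ → ℂ) (x : ℝ × (E × E)) : E × E :=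
  (G (1 + ‖xy e C b x‖ ^ 2) • xa e C b x, xy e C b x)

/-- the density of the primitive -/
noncomputable def dens (G : ℝ → ℝ) (C b : ℝ × ℝ → ℂ) (x : ℝ × ℝ) : ℝ :=
  ((C x).im * (fderiv ℝ C x (0, 1)).re + 4 * x.2 * (1 - x.2) * ((b x).im *
    (fderiv ℝ b x (0, 1)).re) + 2 * (1 - 2 * x.2) * ((b x).re * (b x).im)) *
    G (1 + (C x).im ^ 2 + 4 * x.2 * (1 - x.2) * (b x).im ^ 2)

/-- the primitive -/
noncomputable def prim (e : E) (G : ℝ → ℝ) (C b : ℝ × ℝ → ℂ) (x : ℝ × (E × E)) : ℝ :=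
  ∫ r in (0 : ℝ)..(tau e x.2.1), dens G C b (x.1, r)

section

variable {e : E} {G : ℝ → ℝ} {c : ℝ → ℂ} {C b : ℝ × ℝ → ℂ}

theorem tau_smooth (e : E) : ContDiff ℝ ∞ (tau e) :=
  (contDiff_const.sub (contDiff_const.inner ℝ contDiff_id)).div_const 2

theorem pr_smooth (e : E) : ContDiff ℝ ∞ (pr e) :=
  contDiff_id.sub ((contDiff_const.inner ℝ contDiff_id).smul contDiff_const)

theorem st_smooth (e : E) : ContDiff ℝ ∞ fun x : ℝ × (E × E) => ((x.1, tau e x.2.1) : ℝ × ℝ) :=
  contDiff_fst.prodMk ((tau_smooth e).comp (contDiff_fst.comp contDiff_snd))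

theorem xa_smooth (hC : ContDiff ℝ ∞ C) (hb : ContDiff ℝ ∞ b) : ContDiff ℝ ∞ (xa e C b) :=
  ((Complex.reCLM.contDiff.comp (hC.comp (st_smooth e))).smul contDiff_const).add
    ((Complex.reCLM.contDiff.comp (hb.comp (st_smooth e))).smul
      ((pr_smooth e).comp (contDiff_fst.comp contDiff_snd)))

theorem xy_smooth (hC : ContDiff ℝ ∞ C) (hb : ContDiff ℝ ∞ b) : ContDiff ℝ ∞ (xy e C b) :=
  ((Complex.imCLM.contDiff.comp (hC.comp (st_smooth e))).smul contDiff_const).add
    ((Complex.imCLM.contDiff.comp (hb.comp (st_smooth e))).smul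
      ((pr_smooth e).comp (contDiff_fst.comp contDiff_snd)))

theorem iso_smooth (hG : ContDiff ℝ ∞ G) (hC : ContDiff ℝ ∞ C) (hb : ContDiff ℝ ∞ b) :
    ContDiff ℝ ∞ (iso e G C b) :=
  ((hG.comp (contDiff_const.add ((contDiff_norm_sq ℝ).comp (xy_smooth hC hb)))).smul
    (xa_smooth hC hb)).prodMk (xy_smooth hC hb)

theorem dens_smooth (hG : ContDiff ℝ ∞ G) (hC : ContDiff ℝ ∞ C) (hb : ContDiff ℝ ∞ b) :
    ContDiff ℝ ∞ (dens G C b) := by
  have c1 : ContDiff ℝ ∞ fun x => (C x).im := Complex.imCLM.contDiff.comp hC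
  have c2 : ContDiff ℝ ∞ fun x => (b x).im := Complex.imCLM.contDiff.comp hb
  have c3 : ContDiff ℝ ∞ fun x => (b x).re := Complex.reCLM.contDiff.comp hb
  have c4 : ContDiff ℝ ∞ fun x => (fderiv ℝ C x (0, 1)).re := Complex.reCLM.contDiff.comp
    ((hC.fderiv_right (m := ∞) (by simp)).clm_apply contDiff_const)
  have c5 : ContDiff ℝ ∞ fun x => (fderiv ℝ b x (0, 1)).re := Complex.reCLM.contDiff.comp
    ((hb.fderiv_right (m := ∞) (by simp)).clm_apply contDiff_const)
  have c6 : ContDiff ℝ ∞ fun x : ℝ × ℝ => 4 * x.2 * (1 - x.2) :=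
    (contDiff_const.mul contDiff_snd).mul (contDiff_const.sub contDiff_snd)
  have c7 : ContDiff ℝ ∞ fun x : ℝ × ℝ => 2 * (1 - 2 * x.2) :=
    contDiff_const.mul (contDiff_const.sub (contDiff_const.mul contDiff_snd))
  exact (((c1.mul c4).add (c6.mul (c2.mul c5))).add (c7.mul (c3.mul c2))).mul
    (hG.comp ((contDiff_const.add (c1.pow 2)).add (c6.mul (c2.pow 2))))

theorem prim_smooth (hG : ContDiff ℝ ∞ G) (hC : ContDiff ℝ ∞ C) (hb : ContDiff ℝ ∞ b) :
    ContDiff ℝ ∞ (prim e G C b) :=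
  (H64.contDiff_primitive (dens_smooth hG hC hb)).comp (st_smooth e)

/-- all data on the zero section -/
structure Pt (e : E) (C b : ℝ × ℝ → ℂ) (s : ℝ) (z : E × E) : Prop where
  a2 : ‖xa e C b (s, z)‖ ^ 2 = 1 + ‖xy e C b (s, z)‖ ^ 2
  ay : inner ℝ (xa e C b (s, z)) (xy e C b (s, z)) = (0 : ℝ)
  y2 : ‖xy e C b (s, z)‖ ^ 2 = (C (s, tau e z.1)).im ^ 2 +
    4 * tau e z.1 * (1 - tau e z.1) * (b (s, tau e z.1)).im ^ 2
  ea : inner ℝ e (xa e C b (s, z)) = (C (s, tau e z.1)).re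
  ey : inner ℝ e (xy e C b (s, z)) = (C (s, tau e z.1)).im

theorem IsFam.pt (hF : IsFam c C b) (he : ‖e‖ = 1) (s : ℝ) {z : E × E} (hz : ‖z.1‖ = 1) :
    Pt e C b s z := by
  have hτ := tau_mem he hz
  have hn := norm_pr_sq he hz
  have hrel := hF.rel s _ hτ
  have ee := e_e he
  have ep := e_pr he z.1
  have pe := pr_e he z.1
  have pp : inner ℝ (pr e z.1) (pr e z.1) = (4 * tau e z.1 * (1 - tau e z.1) : ℝ) := by
    rw [real_inner_self_eq_norm_sq, hn]
  set τ := tau e z.1 with hτd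
  set X := C (s, τ) with hX
  set B := b (s, τ) with hB
  have h1 := congrArg Complex.re hrel
  have h2 := congrArg Complex.im hrel
  simp only [sq, Complex.add_re, Complex.mul_re, Complex.add_im, Complex.mul_im, Complex.ofReal_re,
    Complex.ofReal_im, Complex.sub_re, Complex.sub_im, Complex.one_re, Complex.one_im,
    Complex.re_ofNat, Complex.im_ofNat] at h1 h2
  have ha : xa e C b (s, z) = X.re • e + B.re • pr e z.1 := rfl
  have hy : xy e C b (s, z) = X.im • e + B.im • pr e z.1 := rfl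
  have ha2 : ‖xa e C b (s, z)‖ ^ 2 = X.re ^ 2 + 4 * τ * (1 - τ) * B.re ^ 2 := by
    rw [← real_inner_self_eq_norm_sq, ha]
    simp only [inner_add_left, inner_add_right, inner_smul_left, inner_smul_right, ee, ep, pe, pp]
    simp
    ring
  have hy2 : ‖xy e C b (s, z)‖ ^ 2 = X.im ^ 2 + 4 * τ * (1 - τ) * B.im ^ 2 := by
    rw [← real_inner_self_eq_norm_sq, hy]
    simp only [inner_add_left, inner_add_right, inner_smul_left, inner_smul_right, ee, ep, pe, pp]
    simp
    ring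
  refine ⟨?_, ?_, hy2, ?_, ?_⟩
  · rw [ha2, hy2]
    linear_combination h1
  · rw [ha, hy]
    simp only [inner_add_left, inner_add_right, inner_smul_left, inner_smul_right, ee, ep, pe, pp]
    simp
    linear_combination h2 / 2
  · rw [ha]
    simp only [inner_add_right, inner_smul_right, ee, ep]
    ring
  · rw [hy]
    simp only [inner_add_right, inner_smul_right, ee, ep]
    ring

theorem Pt.Gval {s : ℝ} {z : E × E} (_ : Pt e C b s z) (hG : ∀ t, 1 / 4 ≤ t → G t = (√t)⁻¹) :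
    G (1 + ‖xy e C b (s, z)‖ ^ 2) = (√(1 + ‖xy e C b (s, z)‖ ^ 2))⁻¹ :=
  hG _ (by nlinarith [sq_nonneg ‖xy e C b (s, z)‖])

theorem Pt.norm {s : ℝ} {z : E × E} (h : Pt e C b s z) (hG : ∀ t, 1 / 4 ≤ t → G t = (√t)⁻¹) :
    ‖(iso e G C b (s, z)).1‖ = 1 := by
  have h0 : 0 < 1 + ‖xy e C b (s, z)‖ ^ 2 := by positivity
  show ‖G (1 + ‖xy e C b (s, z)‖ ^ 2) • xa e C b (s, z)‖ = 1
  rw [h.Gval hG, norm_smul, norm_inv, Real.norm_eq_abs, abs_of_nonneg (Real.sqrt_nonneg _), ← h.a2,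
    Real.sqrt_sq (norm_nonneg _)]
  refine inv_mul_cancel₀ ?_
  intro h1
  have := h.a2
  rw [h1] at this
  nlinarith [sq_nonneg ‖xy e C b (s, z)‖]

theorem Pt.orth {s : ℝ} {z : E × E} (h : Pt e C b s z) :
    inner ℝ (iso e G C b (s, z)).1 (iso e G C b (s, z)).2 = (0 : ℝ) := by
  show inner ℝ (G (1 + ‖xy e C b (s, z)‖ ^ 2) • xa e C b (s, z)) (xy e C b (s, z)) = (0 : ℝ)
  rw [inner_smul_left, h.ay, mul_zero]

theorem Pt.inv {s : ℝ} {z : E × E} (h : Pt e C b s z) (hG : ∀ t, 1 / 4 ≤ t → G t = (√t)⁻¹) :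
    xa e C b (s, z) = √(1 + ‖(iso e G C b (s, z)).2‖ ^ 2) • (iso e G C b (s, z)).1 := by
  have h0 : 0 < 1 + ‖xy e C b (s, z)‖ ^ 2 := by positivity
  show xa e C b (s, z) = √(1 + ‖xy e C b (s, z)‖ ^ 2) • G (1 + ‖xy e C b (s, z)‖ ^ 2) •
    xa e C b (s, z)
  rw [h.Gval hG, smul_smul, mul_inv_cancel₀ (Real.sqrt_pos.2 h0).ne', one_smul]

/-! ### derivatives -/

theorem line_deriv (s : ℝ) (z v : E × E) :
    HasDerivAt (fun t : ℝ => ((s, z + t • v) : ℝ × (E × E))) (0, v) 0 := by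
  have h1 : HasDerivAt (fun t : ℝ => z + t • v) v 0 := by
    simpa using ((hasDerivAt_id (0 : ℝ)).smul_const v).const_add z
  exact (hasDerivAt_const (0 : ℝ) s).prodMk h1

theorem fderiv_line {X : Type} [NormedAddCommGroup X] [NormedSpace ℝ X] {f : ℝ × (E × E) → X}
    (hf : ContDiff ℝ ∞ f) (s : ℝ) (z v : E × E) :
    HasDerivAt (fun t : ℝ => f (s, z + t • v)) (fderiv ℝ f (s, z) (0, v)) 0 := by
  have h1 : HasFDerivAt f (fderiv ℝ f (s, z)) ((fun t : ℝ => ((s, z + t • v) : ℝ × (E × E))) 0) := by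
    simp only [zero_smul, add_zero]
    exact (hf.differentiable (by simp) _).hasFDerivAt
  exact h1.comp_hasDerivAt (0 : ℝ) (line_deriv s z v)

theorem tau_line (e : E) (z v : E × E) :
    HasDerivAt (fun t : ℝ => tau e (z + t • v).1) (-(inner ℝ e v.1) / 2) 0 := by
  have h1 : (fun t : ℝ => tau e (z + t • v).1) = fun t : ℝ => tau e z.1 + t * (-(inner ℝ e v.1) / 2) := by
    funext t
    simp only [tau, Prod.fst_add, Prod.smul_fst, inner_add_right, inner_smul_right]
    ring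
  rw [h1]
  simpa using ((hasDerivAt_id (0 : ℝ)).mul_const (-(inner ℝ e v.1) / 2)).const_add (tau e z.1)

theorem pr_line (e : E) (z v : E × E) :
    HasDerivAt (fun t : ℝ => pr e (z + t • v).1) (pr e v.1) 0 := by
  have h1 : (fun t : ℝ => pr e (z + t • v).1) = fun t : ℝ => pr e z.1 + t • pr e v.1 := by
    funext t
    simp only [pr, Prod.fst_add, Prod.smul_fst, inner_add_right, inner_smul_right]
    module
  rw [h1]
  simpa using ((hasDerivAt_id (0 : ℝ)).smul_const (pr e v.1)).const_add (pr e z.1)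

theorem C_line (hC : ContDiff ℝ ∞ C) (e : E) (s : ℝ) (z v : E × E) :
    HasDerivAt (fun t : ℝ => C (s, tau e (z + t • v).1))
      ((-(inner ℝ e v.1) / 2 : ℝ) • fderiv ℝ C (s, tau e z.1) (0, 1)) 0 := by
  have h1 : HasFDerivAt C (fderiv ℝ C (s, tau e z.1))
      ((fun t : ℝ => ((s, tau e (z + t • v).1) : ℝ × ℝ)) 0) := by
    simp only [zero_smul, add_zero]
    exact (hC.differentiable (by simp) _).hasFDerivAt
  have h2 := h1.comp_hasDerivAt (0 : ℝ) ((hasDerivAt_const (0 : ℝ) s).prodMk (tau_line e z v))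
  refine h2.congr_deriv ?_
  rw [← map_smul]
  simp

theorem C_slice (hC : ContDiff ℝ ∞ C) (s t : ℝ) :
    deriv (fun r => C (s, r)) t = fderiv ℝ C (s, t) (0, 1) := by
  have h1 : HasFDerivAt C (fderiv ℝ C (s, t)) (s, t) := (hC.differentiable (by simp) _).hasFDerivAt
  exact (h1.comp_hasDerivAt t ((hasDerivAt_const t s).prodMk (hasDerivAt_id t))).deriv

theorem dxa (hC : ContDiff ℝ ∞ C) (hb : ContDiff ℝ ∞ b) (s : ℝ) (z v : E × E) :
    fderiv ℝ (xa e C b) (s, z) (0, v) =
      ((-(inner ℝ e v.1) / 2) * (fderiv ℝ C (s, tau e z.1) (0, 1)).re) • e +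
      ((b (s, tau e z.1)).re • pr e v.1 +
        ((-(inner ℝ e v.1) / 2) * (fderiv ℝ b (s, tau e z.1) (0, 1)).re) • pr e z.1) := by
  have h1 := fderiv_line (xa_smooth (e := e) hC hb) s z v
  have h2 : HasDerivAt (fun t : ℝ => (C (s, tau e (z + t • v).1)).re) _ 0 :=
    Complex.reCLM.hasFDerivAt.comp_hasDerivAt (0 : ℝ) (C_line hC e s z v)
  have h3 : HasDerivAt (fun t : ℝ => (b (s, tau e (z + t • v).1)).re) _ 0 :=
    Complex.reCLM.hasFDerivAt.comp_hasDerivAt (0 : ℝ) (C_line hb e s z v)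
  have h4 := (h2.smul_const e).add (h3.smul (pr_line e z v))
  have h5 := h1.unique h4
  rw [h5]
  simp

theorem dxy (hC : ContDiff ℝ ∞ C) (hb : ContDiff ℝ ∞ b) (s : ℝ) (z v : E × E) :
    fderiv ℝ (xy e C b) (s, z) (0, v) =
      ((-(inner ℝ e v.1) / 2) * (fderiv ℝ C (s, tau e z.1) (0, 1)).im) • e +
      ((b (s, tau e z.1)).im • pr e v.1 +
        ((-(inner ℝ e v.1) / 2) * (fderiv ℝ b (s, tau e z.1) (0, 1)).im) • pr e z.1) := by
  have h1 := fderiv_line (xy_smooth (e := e) hC hb) s z v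
  have h2 : HasDerivAt (fun t : ℝ => (C (s, tau e (z + t • v).1)).im) _ 0 :=
    Complex.imCLM.hasFDerivAt.comp_hasDerivAt (0 : ℝ) (C_line hC e s z v)
  have h3 : HasDerivAt (fun t : ℝ => (b (s, tau e (z + t • v).1)).im) _ 0 :=
    Complex.imCLM.hasFDerivAt.comp_hasDerivAt (0 : ℝ) (C_line hb e s z v)
  have h4 := (h2.smul_const e).add (h3.smul (pr_line e z v))
  have h5 := h1.unique h4
  rw [h5]
  simp

theorem diso_snd (hG : ContDiff ℝ ∞ G) (hC : ContDiff ℝ ∞ C) (hb : ContDiff ℝ ∞ b) (s : ℝ)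
    (z v : E × E) :
    (fderiv ℝ (iso e G C b) (s, z) (0, v)).2 = fderiv ℝ (xy e C b) (s, z) (0, v) := by
  have h1 := fderiv_line (iso_smooth (e := e) hG hC hb) s z v
  have h2 : HasDerivAt (fun t : ℝ => (iso e G C b (s, z + t • v)).2) _ 0 :=
    hasFDerivAt_snd.comp_hasDerivAt (0 : ℝ) h1
  exact h2.unique (fderiv_line (xy_smooth (e := e) hC hb) s z v)

theorem diso_fst (hG : ContDiff ℝ ∞ G) (hC : ContDiff ℝ ∞ C) (hb : ContDiff ℝ ∞ b) (s : ℝ)
    (z v : E × E) : ∃ k : ℝ, (fderiv ℝ (xy e C b) (s, z) (0, v) = 0 → k = 0) ∧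
    (fderiv ℝ (iso e G C b) (s, z) (0, v)).1 = k • xa e C b (s, z) +
      G (1 + ‖xy e C b (s, z)‖ ^ 2) • fderiv ℝ (xa e C b) (s, z) (0, v) := by
  have h1 := fderiv_line (iso_smooth (e := e) hG hC hb) s z v
  have h2 : HasDerivAt (fun t : ℝ => (iso e G C b (s, z + t • v)).1) _ 0 :=
    hasFDerivAt_fst.comp_hasDerivAt (0 : ℝ) h1
  have hy := fderiv_line (xy_smooth (e := e) hC hb) s z v
  have ha := fderiv_line (xa_smooth (e := e) hC hb) s z v
  have h3 := (hy.norm_sq).const_add 1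
  have h4 : HasDerivAt G (deriv G (1 + ‖xy e C b (s, z + (0 : ℝ) • v)‖ ^ 2))
      (1 + ‖xy e C b (s, z + (0 : ℝ) • v)‖ ^ 2) := (hG.differentiable (by simp) _).hasDerivAt
  have h5 := h4.comp (0 : ℝ) h3
  have h6 := h5.smul ha
  have h7 := h2.unique h6
  refine ⟨deriv G (1 + ‖xy e C b (s, z)‖ ^ 2) *
      (2 * inner ℝ (xy e C b (s, z)) (fderiv ℝ (xy e C b) (s, z) (0, v))), fun h => by
    rw [h]
    simp, h7.trans ?_⟩
  simp only [Function.comp_apply, zero_smul, add_zero]
  rw [add_comm]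

theorem dprim (hG : ContDiff ℝ ∞ G) (hC : ContDiff ℝ ∞ C) (hb : ContDiff ℝ ∞ b) (s : ℝ)
    (z v : E × E) : fderiv ℝ (prim e G C b) (s, z) (0, v) =
      dens G C b (s, tau e z.1) * (-(inner ℝ e v.1) / 2) := by
  have h1 := fderiv_line (prim_smooth (e := e) hG hC hb) s z v
  have hc : Continuous fun r : ℝ => dens G C b (s, r) :=
    (dens_smooth hG hC hb).continuous.comp (by fun_prop)
  have h2 : HasDerivAt (fun y => ∫ r in (0 : ℝ)..y, dens G C b (s, r))
      (dens G C b (s, tau e (z + (0 : ℝ) • v).1)) (tau e (z + (0 : ℝ) • v).1) :=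
    intervalIntegral.integral_hasDerivAt_right (hc.intervalIntegrable _ _)
      (hc.stronglyMeasurableAtFilter _ _) hc.continuousAt
  have h3 := h2.comp (0 : ℝ) (tau_line e z v)
  have h4 := h1.unique h3
  rw [h4]
  simp

end

/-- the zero section -/
def Zs (E : Type) [NormedAddCommGroup E] : Set (E × E) := {z | z.1 ∈ Sph E ∧ z.2 = 0}

theorem exists_Zs_ret : ∃ (U : Set (E × E)) (ρ : E × E → E × E), IsRet (Zs E) U ρ ∧
    ∀ z ∈ Zs E, ∀ v ∈ Tn ρ z, v.2 = 0 ∧ inner ℝ z.1 v.1 = (0 : ℝ) := by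
  obtain ⟨U, r, hr⟩ := exists_sph_ret (E := E)
  have hS : ContDiff ℝ ∞ fun z : E × E => ((r z.1, 0) : E × E) :=
    (hr.smooth.comp contDiff_fst).prodMk contDiff_const
  have hRet : IsRet (Zs E) (U ×ˢ univ) fun z => (r z.1, 0) := by
    refine ⟨?_, hr.isOpen.prod isOpen_univ, ?_, hS, ?_, ?_⟩
    · exact (hr.isClosed.preimage continuous_fst).inter (isClosed_singleton.preimage continuous_snd)
    · intro z hz
      exact ⟨hr.sub hz.1, mem_univ _⟩
    · intro z hz
      exact ⟨hr.maps _ hz.1, rfl⟩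
    · rintro ⟨q, p⟩ ⟨h1, h2⟩
      simp only at h1 h2
      subst h2
      simp only [hr.fix q h1]
  refine ⟨_, _, hRet, fun z hz v hv => ?_⟩
  have h1 : HasFDerivAt (fun z : E × E => ((r z.1, 0) : E × E))
      (((fderiv ℝ r z.1).comp (ContinuousLinearMap.fst ℝ E E)).prod 0) z :=
    ((hr.hasFDerivAt z.1).comp z hasFDerivAt_fst).prodMk (hasFDerivAt_const _ _)
  rw [mem_Tn, h1.fderiv] at hv
  have h2 : fderiv ℝ r z.1 v.1 = v.1 := congrArg Prod.fst hv
  have h3 : (0 : E) = v.2 := congrArg Prod.snd hv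
  exact ⟨h3.symm, (Tn_sph hr (mem_Sph.1 hz.1)).1 h2⟩

/-- **The zero section is Hamiltonian isotopic to the Lagrangian over an arc.** -/
theorem ham_of_arc {e : E} (he : ‖e‖ = 1) {u₀ : E} (hu₀ : ‖u₀‖ = 1) (heu₀ : inner ℝ e u₀ = (0 : ℝ))
    {c : ℝ → ℂ} (hc : IsArc c) {L : Set (E × E)}
    (hL : ∀ z, z ∈ L ↔ ‖z.1‖ = 1 ∧ inner ℝ z.1 z.2 = (0 : ℝ) ∧
      (∃ u, ‖u‖ = 1 ∧ inner ℝ e u = (0 : ℝ) ∧ InPl e u z.1 ∧ InPl e u z.2) ∧
      ∃ τ ∈ Icc (0 : ℝ) 1, c τ = wt e z) : HamIsotopicToZero (Sph E) L := by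
  obtain ⟨C, b, hF⟩ := hc.exists_fam
  obtain ⟨G, hG, hG1⟩ := exists_invsqrt
  obtain ⟨UQ, r, hr⟩ := exists_sph_ret (E := E)
  obtain ⟨UK, ρ, hρ, hTn⟩ := exists_Zs_ret (E := E)
  have hC := hF.hC
  have hb := hF.hb
  have cQ : IsCompact (Sph E) := isCompact_sphere _ _
  have cK : IsCompact (Zs E) := by
    have : Zs E = Sph E ×ˢ {0} := rfl
    rw [this]
    exact cQ.prod isCompact_singleton
  have ee := e_e he
  have hpt : ∀ s, ∀ z ∈ Zs E, Pt e C b s z := fun s z hz => hF.pt he s (mem_Sph.1 hz.1)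
  obtain ⟨H, φ, hH, hφ, hφι⟩ := H481.ham_ext hr cQ hρ cK (iso_smooth (e := e) hG hC hb)
    (fun s z hz => cot_sph.2 ⟨(hpt s z hz).norm hG1, (hpt s z hz).orth⟩)
    (fun s z hz z' hz' h => by
      have p := hpt s z hz
      have p' := hpt s z' hz'
      have hy : xy e C b (s, z) = xy e C b (s, z') := congrArg Prod.snd h
      have ha : xa e C b (s, z) = xa e C b (s, z') := by
        rw [p.inv hG1, p'.inv hG1, h]
      have h1 : C (s, tau e z.1) = C (s, tau e z'.1) := by
        apply Complex.ext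
        · rw [← p.ea, ← p'.ea, ha]
        · rw [← p.ey, ← p'.ey, hy]
      have hq := mem_Sph.1 hz.1
      have hq' := mem_Sph.1 hz'.1
      have h2 := hF.inj s _ (tau_mem he hq) _ (tau_mem he hq') h1
      have hbn := hF.bne s _ (tau_mem he hq)
      have ha2 : (b (s, tau e z.1)).re • pr e z.1 = (b (s, tau e z.1)).re • pr e z'.1 := by
        have e1 : xa e C b (s, z) = (C (s, tau e z.1)).re • e + (b (s, tau e z.1)).re • pr e z.1 := rfl
        have e2 : xa e C b (s, z') = (C (s, tau e z'.1)).re • e +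
          (b (s, tau e z'.1)).re • pr e z'.1 := rfl
        rw [e1, e2, ← h2] at ha
        exact add_left_cancel ha
      have hy2 : (b (s, tau e z.1)).im • pr e z.1 = (b (s, tau e z.1)).im • pr e z'.1 := by
        have e1 : xy e C b (s, z) = (C (s, tau e z.1)).im • e + (b (s, tau e z.1)).im • pr e z.1 := rfl
        have e2 : xy e C b (s, z') = (C (s, tau e z'.1)).im • e +
          (b (s, tau e z'.1)).im • pr e z'.1 := rfl
        rw [e1, e2, ← h2] at hy
        exact add_left_cancel hy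
      have h3 : pr e z.1 = pr e z'.1 := by
        by_cases h4 : (b (s, tau e z.1)).re = 0
        · have h5 : (b (s, tau e z.1)).im ≠ 0 := fun h5 => hbn (Complex.ext h4 h5)
          exact smul_right_injective E h5 hy2
        · exact smul_right_injective E h4 ha2
      have h4 : z.1 = z'.1 := by
        rw [decomp e z.1, decomp e z'.1, h2, h3]
      exact Prod.ext h4 (by rw [hz.2, hz'.2]))
    (fun s z hz v hv h => by
      obtain ⟨hv2, hv1⟩ := hTn z hz v hv
      have hq := mem_Sph.1 hz.1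
      have hy : fderiv ℝ (xy e C b) (s, z) (0, v) = 0 := by
        rw [← diso_snd hG hC hb, h]
        rfl
      obtain ⟨k, hk, hk2⟩ := diso_fst (e := e) hG hC hb s z v
      have hGne : G (1 + ‖xy e C b (s, z)‖ ^ 2) ≠ 0 := by
        rw [(hpt s z hz).Gval hG1]
        exact inv_ne_zero (Real.sqrt_pos.2 (by positivity)).ne'
      have ha : fderiv ℝ (xa e C b) (s, z) (0, v) = 0 := by
        rw [h, hk hy, zero_smul, zero_add] at hk2
        exact (smul_eq_zero.1 hk2.symm).resolve_left hGne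
      have ep := e_pr he z.1
      have ev := e_pr he v.1
      rw [dxa hC hb] at ha
      rw [dxy hC hb] at hy
      have h1 := congrArg (fun x => (inner ℝ e x : ℝ)) ha
      have h2 := congrArg (fun x => (inner ℝ e x : ℝ)) hy
      simp only [inner_add_right, inner_smul_right, ee, ep, ev, inner_zero_right, mul_zero,
        mul_one, add_zero] at h1 h2
      have hC1 : fderiv ℝ C (s, tau e z.1) (0, 1) ≠ 0 := by
        rw [← C_slice hC]
        exact hF.imm s _ (tau_mem he hq)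
      have hd : -(inner ℝ e v.1) / 2 = (0 : ℝ) := by
        rcases mul_eq_zero.1 h1 with h3 | h3
        · exact h3
        · rcases mul_eq_zero.1 h2 with h4 | h4
          · exact h4
          · exact absurd (Complex.ext h3 h4) hC1
      have hev : (inner ℝ e v.1 : ℝ) = 0 := by linarith
      rw [hd] at ha hy
      simp only [zero_mul, zero_smul, zero_add, add_zero] at ha hy
      have hpv : pr e v.1 = 0 := by
        rcases smul_eq_zero.1 ha with h3 | h3
        · rcases smul_eq_zero.1 hy with h4 | h4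
          · exact absurd (Complex.ext h3 h4) (hF.bne s _ (tau_mem he hq))
          · exact h4
        · exact h3
      have h5 : v.1 = 0 := by
        have : v.1 = (inner ℝ e v.1 : ℝ) • e + pr e v.1 := by unfold pr; abel
        rw [this, hev, hpv]
        simp
      exact Prod.ext h5 hv2)
    (prim_smooth (e := e) hG hC hb)
    (fun s z hz v hv => by
      obtain ⟨hv2, hv1⟩ := hTn z hz v hv
      have hq := mem_Sph.1 hz.1
      have p := hpt s z hz
      obtain ⟨k, -, hk2⟩ := diso_fst (e := e) hG hC hb s z v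
      have hay := p.ay
      rw [real_inner_comm] at hay
      rw [dprim hG hC hb, hk2, inner_add_right, inner_smul_right, inner_smul_right]
      have h0 : (iso e G C b (s, z)).2 = xy e C b (s, z) := rfl
      rw [h0, hay, mul_zero, zero_add, dxa hC hb]
      have hy : xy e C b (s, z) = (C (s, tau e z.1)).im • e + (b (s, tau e z.1)).im • pr e z.1 := rfl
      have ep := e_pr he z.1
      have ev := e_pr he v.1
      have pe := pr_e he z.1
      have hpp : inner ℝ (pr e z.1) (pr e z.1) = (4 * tau e z.1 * (1 - tau e z.1) : ℝ) := by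
        rw [real_inner_self_eq_norm_sq, norm_pr_sq he hq]
      have hpv := pr_pr he z.1 v.1
      rw [hv1] at hpv
      have hG3 : G (1 + ‖xy e C b (s, z)‖ ^ 2) = G (1 + (C (s, tau e z.1)).im ^ 2 +
          4 * tau e z.1 * (1 - tau e z.1) * (b (s, tau e z.1)).im ^ 2) := by
        rw [p.y2, add_assoc]
      rw [hG3, hy]
      simp only [inner_add_left, inner_add_right, inner_smul_left, inner_smul_right, ee, ep, ev, pe,
        hpp, hpv, dens]
      have hτ : (inner ℝ e z.1 : ℝ) = 1 - 2 * tau e z.1 := by unfold tau; ring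
      rw [hτ]
      simp
      ring)
  refine ⟨H, φ, hH, hφ, ?_⟩
  -- the end points
  have h0 : ∀ z ∈ Zs E, iso e G C b (0, z) = z := by
    intro z hz
    have hq := mem_Sph.1 hz.1
    have hτ := tau_mem he hq
    have hC0 := hF.C0 (tau e z.1)
    have hb0 := hF.b0 _ hτ
    have hy : xy e C b (0, z) = 0 := by
      have : xy e C b (0, z) = (C (0, tau e z.1)).im • e + (b (0, tau e z.1)).im • pr e z.1 := rfl
      rw [this, hC0, hb0]
      simp
    have ha : xa e C b (0, z) = z.1 := by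
      have : xa e C b (0, z) = (C (0, tau e z.1)).re • e + (b (0, tau e z.1)).re • pr e z.1 := rfl
      rw [this, hC0, hb0]
      conv_rhs => rw [decomp e z.1]
      simp
    have : iso e G C b (0, z) = (G (1 + ‖xy e C b (0, z)‖ ^ 2) • xa e C b (0, z), xy e C b (0, z)) := rfl
    rw [this, hy, ha, hG1 _ (by simp; norm_num)]
    simp only [norm_zero]
    refine Prod.ext ?_ hz.2.symm
    simp
  have h1 : ∀ z, z ∈ L ↔ ∃ q, ‖q‖ = 1 ∧ iso e G C b (1, (q, 0)) = z := by
    intro z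
    rw [hL]
    constructor
    · rintro ⟨hz1, hz2, ⟨u, hu, heu, hu1, hu2⟩, τ, hτ, hcτ⟩
      set a₀ : ℝ := √(1 + ‖z.2‖ ^ 2) * inner ℝ e z.1 with ha₀
      set a₁ : ℝ := √(1 + ‖z.2‖ ^ 2) * inner ℝ u z.1 with ha₁
      set y₀ : ℝ := inner ℝ e z.2 with hy₀
      set y₁ : ℝ := inner ℝ u z.2 with hy₁
      have uu : inner ℝ u u = (1 : ℝ) := e_e hu
      have ue : inner ℝ u e = (0 : ℝ) := by rw [real_inner_comm]; exact heu
      have hsq : 0 < 1 + ‖z.2‖ ^ 2 := by positivity
      have hs2 : √(1 + ‖z.2‖ ^ 2) ^ 2 = 1 + ‖z.2‖ ^ 2 := Real.sq_sqrt hsq.le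
      have n1 : (inner ℝ e z.1 : ℝ) ^ 2 + (inner ℝ u z.1 : ℝ) ^ 2 = 1 := by
        have h2 : ‖z.1‖ ^ 2 = 1 := by rw [hz1]; norm_num
        rw [← real_inner_self_eq_norm_sq] at h2
        have h3 : (inner ℝ z.1 z.1 : ℝ) = inner ℝ ((inner ℝ e z.1 : ℝ) • e + (inner ℝ u z.1 : ℝ) • u)
          ((inner ℝ e z.1 : ℝ) • e + (inner ℝ u z.1 : ℝ) • u) := by rw [← hu1]
        rw [h3] at h2
        simp only [inner_add_left, inner_add_right, inner_smul_left, inner_smul_right, ee, uu, ue,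
          heu] at h2
        simp at h2
        linarith
      have n2 : y₀ ^ 2 + y₁ ^ 2 = ‖z.2‖ ^ 2 := by
        rw [← real_inner_self_eq_norm_sq]
        have h3 : (inner ℝ z.2 z.2 : ℝ) = inner ℝ (y₀ • e + y₁ • u) (y₀ • e + y₁ • u) := by
          rw [← hu2]
        rw [h3]
        simp only [inner_add_left, inner_add_right, inner_smul_left, inner_smul_right, ee, uu, ue,
          heu]
        simp
        ring
      have n3 : (inner ℝ e z.1 : ℝ) * y₀ + (inner ℝ u z.1 : ℝ) * y₁ = 0 := by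
        have h3 : (inner ℝ z.1 z.2 : ℝ) = inner ℝ ((inner ℝ e z.1 : ℝ) • e + (inner ℝ u z.1 : ℝ) • u)
          (y₀ • e + y₁ • u) := by rw [← hu1, ← hu2]
        rw [h3] at hz2
        simp only [inner_add_left, inner_add_right, inner_smul_left, inner_smul_right, ee, uu, ue,
          heu] at hz2
        simp at hz2
        linarith
      have hre : (c τ).re = a₀ := by
        rw [hcτ]
        simp [wt, ha₀, mul_comm]
      have him : (c τ).im = y₀ := by
        rw [hcτ]
        simp [wt, hy₀]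
      -- the other component
      have hSg : ((a₁ : ℂ) + (y₁ : ℂ) * Complex.I) ^ 2 = 4 * τ * (1 - τ) * b (1, τ) ^ 2 := by
        have h2 := hF.rel 1 τ hτ
        rw [hF.C1] at h2
        have h3 : 4 * (τ : ℂ) * (1 - τ) * b (1, τ) ^ 2 = 1 - c τ ^ 2 := by
          linear_combination h2
        rw [h3, ← Complex.re_add_im (c τ), hre, him]
        have r1 : a₀ ^ 2 + a₁ ^ 2 = 1 + (y₀ ^ 2 + y₁ ^ 2) := by
          rw [ha₀, ha₁, mul_pow, mul_pow, ← mul_add, n1, mul_one, hs2, n2]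
        have r2 : a₀ * y₀ + a₁ * y₁ = 0 := by
          rw [ha₀, ha₁]
          linear_combination √(1 + ‖z.2‖ ^ 2) * n3
        have r1' : (a₀ : ℂ) ^ 2 + (a₁ : ℂ) ^ 2 = 1 + ((y₀ : ℂ) ^ 2 + (y₁ : ℂ) ^ 2) := by
          exact_mod_cast r1
        have r2' : (a₀ : ℂ) * y₀ + (a₁ : ℂ) * y₁ = 0 := by exact_mod_cast r2
        linear_combination r1' + 2 * Complex.I * r2' +
          ((y₁ : ℂ) ^ 2 + (y₀ : ℂ) ^ 2) * Complex.I_sq
      set m : ℝ := 2 * √(τ * (1 - τ)) with hm
      have hτ1 : 0 ≤ τ * (1 - τ) := mul_nonneg hτ.1 (by linarith [hτ.2])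
      have hm2 : m ^ 2 = 4 * τ * (1 - τ) := by
        rw [hm, mul_pow, Real.sq_sqrt hτ1]
        ring
      have hm2' : (m : ℂ) ^ 2 = 4 * (τ : ℂ) * (1 - τ) := by exact_mod_cast hm2
      obtain ⟨m', hm', hmb⟩ : ∃ m' : ℝ, m' ^ 2 = 4 * τ * (1 - τ) ∧
          (a₁ : ℂ) + (y₁ : ℂ) * Complex.I = m' * b (1, τ) := by
        have h2 : ((a₁ : ℂ) + (y₁ : ℂ) * Complex.I) ^ 2 = (m * b (1, τ)) ^ 2 := by
          rw [hSg, mul_pow, hm2']
        rcases sq_eq_sq_iff_eq_or_eq_neg.1 h2 with h3 | h3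
        · exact ⟨m, hm2, h3⟩
        · refine ⟨-m, by rw [neg_sq, hm2], ?_⟩
          rw [h3]
          push_cast
          ring
      have hbr : a₁ = m' * (b (1, τ)).re := by
        have := congrArg Complex.re hmb
        simpa using this
      have hbi : y₁ = m' * (b (1, τ)).im := by
        have := congrArg Complex.im hmb
        simpa using this
      set q : E := (1 - 2 * τ) • e + m' • u with hq
      have heq : inner ℝ e q = (1 - 2 * τ : ℝ) := by
        rw [hq]
        simp only [inner_add_right, inner_smul_right, ee, heu]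
        ring
      have hqn : ‖q‖ = 1 := by
        rw [← sq_eq_sq₀ (norm_nonneg _) zero_le_one, ← real_inner_self_eq_norm_sq, hq]
        simp only [inner_add_left, inner_add_right, inner_smul_left, inner_smul_right, ee, uu, ue,
          heu]
        simp
        linear_combination hm'
      have htq : tau e q = τ := by
        unfold tau
        rw [heq]
        ring
      have hpq : pr e q = m' • u := by
        unfold pr
        rw [heq, hq]
        abel
      refine ⟨q, hqn, ?_⟩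
      have p := hF.pt he 1 (z := (q, (0 : E))) hqn
      have hy : xy e C b (1, (q, (0 : E))) = z.2 := by
        have : xy e C b (1, (q, (0 : E))) = (C (1, tau e q)).im • e + (b (1, tau e q)).im • pr e q := rfl
        rw [this, htq, hpq, hF.C1, him, smul_smul, mul_comm, ← hbi]
        exact hu2.symm
      have ha : xa e C b (1, (q, (0 : E))) = √(1 + ‖z.2‖ ^ 2) • z.1 := by
        have : xa e C b (1, (q, (0 : E))) = (C (1, tau e q)).re • e + (b (1, tau e q)).re • pr e q := rfl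
        rw [this, htq, hpq, hF.C1, hre, smul_smul, mul_comm, ← hbr, ha₀, ha₁]
        conv_rhs => rw [hu1]
        rw [smul_add, smul_smul, smul_smul]
      have : iso e G C b (1, (q, (0 : E))) = (G (1 + ‖xy e C b (1, (q, (0 : E)))‖ ^ 2) •
        xa e C b (1, (q, (0 : E))), xy e C b (1, (q, (0 : E)))) := rfl
      rw [this, p.Gval hG1, hy, ha, smul_smul, inv_mul_cancel₀ (Real.sqrt_pos.2 hsq).ne', one_smul]
    · rintro ⟨q, hq, rfl⟩
      have p := hF.pt he 1 (z := (q, (0 : E))) hq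
      have hτ := tau_mem he hq
      refine ⟨p.norm hG1, p.orth, ?_, tau e q, hτ, ?_⟩
      · have key : ∃ u : E, ‖u‖ = 1 ∧ inner ℝ e u = (0 : ℝ) ∧ ∃ k : ℝ, pr e q = k • u := by
          by_cases h2 : pr e q = 0
          · exact ⟨u₀, hu₀, heu₀, 0, by rw [h2, zero_smul]⟩
          · refine ⟨‖pr e q‖⁻¹ • pr e q, ?_, ?_, ‖pr e q‖, ?_⟩
            · rw [norm_smul, norm_inv, norm_norm]
              exact inv_mul_cancel₀ (norm_ne_zero_iff.2 h2)
            · rw [inner_smul_right, e_pr he, mul_zero]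
            · rw [smul_smul, mul_inv_cancel₀ (norm_ne_zero_iff.2 h2), one_smul]
        obtain ⟨u, hu, heu, k, hk⟩ := key
        have uu : inner ℝ u u = (1 : ℝ) := e_e hu
        have ue : inner ℝ u e = (0 : ℝ) := by rw [real_inner_comm]; exact heu
        have hpl : ∀ x y : ℝ, InPl e u (x • e + y • u) := by
          intro x y
          unfold InPl
          simp only [inner_add_right, inner_smul_right, ee, uu, ue, heu]
          simp
        refine ⟨u, hu, heu, ?_, ?_⟩
        · have : (iso e G C b (1, (q, (0 : E)))).1 = G (1 + ‖xy e C b (1, (q, (0 : E)))‖ ^ 2) •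
            ((C (1, tau e q)).re • e + (b (1, tau e q)).re • pr e q) := rfl
          rw [this, hk, smul_add, smul_smul, smul_smul, smul_smul]
          exact hpl _ _
        · have : (iso e G C b (1, (q, (0 : E)))).2 = (C (1, tau e q)).im • e +
            (b (1, tau e q)).im • pr e q := rfl
          rw [this, hk, smul_smul]
          exact hpl _ _
      · have h2 : (inner ℝ e (iso e G C b (1, (q, (0 : E)))).1 : ℝ) *
            √(1 + ‖(iso e G C b (1, (q, (0 : E)))).2‖ ^ 2) = (c (tau e q)).re := by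
          rw [← hF.C1, ← p.ea, p.inv hG1, inner_smul_right]
          ring
        have h3 : (inner ℝ e (iso e G C b (1, (q, (0 : E)))).2 : ℝ) = (c (tau e q)).im := by
          rw [← hF.C1, ← p.ey]
          rfl
        unfold wt
        rw [h2, h3]
        exact (Complex.re_add_im _).symm
  ext w
  rw [h1]
  constructor
  · rintro ⟨y, hy, rfl⟩
    have hyZ : y ∈ Zs E := hy
    refine ⟨y.1, mem_Sph.1 hyZ.1, ?_⟩
    have h2 := hφι 1 ⟨zero_le_one, le_refl 1⟩ y hyZ
    rw [h0 y hyZ] at h2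
    rw [h2]
    congr 2
    exact Prod.ext rfl hyZ.2.symm
  · rintro ⟨q, hq, rfl⟩
    have hyZ : ((q, 0) : E × E) ∈ Zs E := ⟨mem_Sph.2 hq, rfl⟩
    refine ⟨(q, 0), hyZ, ?_⟩
    have h2 := hφι 1 ⟨zero_le_one, le_refl 1⟩ (q, 0) hyZ
    rw [h0 _ hyZ] at h2
    exact h2

end Vale.Agent.P220.R2.H180
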