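import Vale.Agent.P220.R2.H180.Arc
import Vale.Agent.P220.R2.H57.B.Main

/-!
# Rotationally invariant closed exact Lagrangians in the cotangent bundle of a sphere
-/

open Set Filter Topology
open scoped ContDiff

set_option linter.unusedSectionVars false

namespace Vale.Agent.P220.R2.H180

open H57

variable {E : Type} [NormedAddCommGroup E] [InnerProductSpace ℝ E] [FiniteDimensional ℝ E]

/-- a reflection that exchanges two unit vectors orthogonal to `e` -/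
theorem exists_swap {e u v : E} (hu : Orth e u) (hv : Orth e v) :
    ∃ g : E ≃ₗᵢ[ℝ] E, g e = e ∧ g v = u ∧ (∀ x, g (g x) = x) ∧
      (LinearMap.det (g.toLinearEquiv : E →ₗ[ℝ] E) = 1 ∨
        LinearMap.det (g.toLinearEquiv : E →ₗ[ℝ] E) = -1) := by
  by_cases huv : v = u
  · refine ⟨LinearIsometryEquiv.refl ℝ E, rfl, huv, fun x => rfl, Or.inl ?_⟩
    exact LinearMap.det_id
  · have hd : v - u ≠ 0 := sub_ne_zero.2 huv
    have hn : ‖v - u‖ ≠ 0 := norm_ne_zero_iff.2 hd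
    have ha : ‖‖v - u‖⁻¹ • (v - u)‖ = 1 := by
      rw [norm_smul, norm_inv, norm_norm]
      exact inv_mul_cancel₀ hn
    refine ⟨Refl (‖v - u‖⁻¹ • (v - u)), ?_, ?_, ?_, Or.inr (Refl_det ha)⟩
    · rw [Refl_apply ha, inner_smul_left, inner_sub_left, hv.wv, hu.wv]
      simp
    · rw [Refl_apply ha, inner_smul_left, smul_smul]
      have h1 : (inner ℝ (v - u) v : ℝ) = ‖v - u‖ ^ 2 / 2 := by
        rw [← real_inner_self_eq_norm_sq, inner_sub_left, inner_sub_left, inner_sub_right,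
          inner_sub_right, hv.ww, hu.ww, real_inner_comm u v]
        ring
      have h2 : 2 * ((starRingEnd ℝ) ‖v - u‖⁻¹ * inner ℝ (v - u) v) * ‖v - u‖⁻¹ = 1 := by
        rw [h1]
        simp only [conj_trivial]
        field_simp
      rw [h2, one_smul]
      abel
    · intro x
      unfold Refl
      exact Submodule.reflection_reflection _ x

theorem inPl_map {e u v : E} {g : E ≃ₗᵢ[ℝ] E} (hge : g e = e) (hgv : g v = u) {x : E}
    (hx : InPl e v x) : InPl e u (g x) := by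
  unfold InPl at *
  have h1 : (inner ℝ e (g x) : ℝ) = inner ℝ e x := by
    conv_lhs => rw [← hge]
    exact g.inner_map_map _ _
  have h2 : (inner ℝ u (g x) : ℝ) = inner ℝ v x := by
    rw [← hgv]
    exact g.inner_map_map _ _
  rw [h1, h2]
  conv_lhs => rw [hx]
  rw [map_add, map_smul, map_smul, hge, hgv]

theorem wt_map {e : E} {g : E ≃ₗᵢ[ℝ] E} (hge : g e = e) (z : E × E) :
    wt e (g z.1, g z.2) = wt e z := by
  have h1 : ∀ x, (inner ℝ e (g x) : ℝ) = inner ℝ e x := by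
    intro x
    conv_lhs => rw [← hge]
    exact g.inner_map_map _ _
  unfold wt
  simp only [h1, LinearIsometryEquiv.norm_map]

theorem exists_orth {e : E} (he : ‖e‖ = 1) {n : ℕ} (hn : Module.finrank ℝ E = n + 1) (h1 : 1 ≤ n) :
    ∃ u, Orth e u := by
  have he0 : e ≠ 0 := by
    rintro rfl
    simp at he
  have h2 := (ℝ ∙ e).finrank_add_finrank_orthogonal
  rw [finrank_span_singleton he0, hn] at h2
  have h4 : (ℝ ∙ e)ᗮ ≠ ⊥ := by
    intro h5
    rw [h5, finrank_bot] at h2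
    omega
  obtain ⟨x, hx, hx0⟩ := Submodule.exists_mem_ne_zero_of_ne_bot h4
  refine ⟨‖x‖⁻¹ • x, he, ?_, ?_⟩
  · rw [norm_smul, norm_inv, norm_norm]
    exact inv_mul_cancel₀ (norm_ne_zero_iff.2 hx0)
  · rw [inner_smul_right, hx e (Submodule.mem_span_singleton_self e), mul_zero]

/-- the case of the circle -/
theorem main_one {e : E} (hn : Module.finrank ℝ E = 1 + 1) {u : E} (h : Orth e u)
    {L : Set (E × E)} (hL : IsClosedExactLagrangian 1 (Sph E) L) : HamIsotopicToZero (Sph E) L := by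
  have htop : Pl e u = ⊤ := by
    refine Submodule.eq_top_of_finrank_eq ?_
    rw [h.finrank_Pl, hn]
  have hall : ∀ x : E, InPl e u x := fun x => h.mem_Pl.1 (htop ▸ Submodule.mem_top)
  have hR : ∀ z, RR e u z = z := fun z => h.RR_eq.2 ⟨hall _, hall _⟩
  have hC : Circ e u = Sph E := by
    ext q
    rw [h.mem_Circ, mem_Sph]
    exact and_iff_left (hall q)
  have hSl : Slc e u L = L := by
    ext z
    exact and_iff_left (hR z)
  have h1 := h.slice_closed hn hL (fun z hz => by rw [hR]; exact hz) (by rw [hSl]; exact hL.nonempty)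
  have h2 := main_any h.circ_closed h1 (h.slice_emb h1.sub)
  rwa [hC, hSl] at h2

/-- the reflection in the plane has determinant `± 1` -/
theorem det_refl (K : Submodule ℝ E) :
    LinearMap.det ((K.reflection).toLinearEquiv : E →ₗ[ℝ] E) = 1 ∨
      LinearMap.det ((K.reflection).toLinearEquiv : E →ₗ[ℝ] E) = -1 := by
  have h1 := Submodule.det_reflection (K := K)
  have h2 := neg_one_pow_eq_or ℝ (Module.finrank ℝ Kᗮ)
  rw [← h1] at h2
  exact h2

/-- **Main theorem.** -/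
theorem main {n : ℕ} (hn : Module.finrank ℝ E = n + 1) (h1 : 1 ≤ n) {e : E} (he : ‖e‖ = 1)
    {L : Set (E × E)} (hL : IsClosedExactLagrangian n (Sph E) L) (hr : RotInv e L) :
    HamIsotopicToZero (Sph E) L := by
  obtain ⟨u, h⟩ := exists_orth he hn h1
  rcases h1.eq_or_lt with h2 | h2
  · subst h2
    exact main_one hn h hL
  have h3 : 3 ≤ Module.finrank ℝ E := by omega
  have hinv : ∀ g : E ≃ₗᵢ[ℝ] E, g e = e → (LinearMap.det (g.toLinearEquiv : E →ₗ[ℝ] E) = 1 ∨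
      LinearMap.det (g.toLinearEquiv : E →ₗ[ℝ] E) = -1) → ∀ z ∈ L, (g z.1, g z.2) ∈ L :=
    fun g hg hd z hz => inv_of_det he h.w1 h.vw h3 hL hr hg hd hz
  have hRL : ∀ z ∈ L, RR e u z ∈ L := fun z hz =>
    hinv (Pl e u).reflection (h.refl_eq.2 (InPl.smul he h.w1 h.vw 1 0 (by simp))) (det_refl _) z hz
  have hSL : ∀ z ∈ L, SS u z ∈ L := fun z hz =>
    hinv (Refl u) h.Refl_e (Or.inr (Refl_det h.w1)) z hz
  have hplane : ∀ z ∈ L, ∃ v, Orth e v ∧ InPl e v z.1 ∧ InPl e v z.2 := by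
    intro z hz
    obtain ⟨v, hv, hev, h4, h5⟩ := exists_plane he h.w1 h.vw hL hr hz
    exact ⟨v, ⟨he, hv, hev⟩, h4, h5⟩
  -- the slice
  have hmove : ∀ z ∈ L, ∀ v, Orth e v → InPl e v z.1 → InPl e v z.2 →
      ∃ g : E ≃ₗᵢ[ℝ] E, g e = e ∧ (∀ x, g (g x) = x) ∧ (g z.1, g z.2) ∈ Slc e u L := by
    intro z hz v hv h4 h5
    obtain ⟨g, hge, hgv, hgg, hdet⟩ := exists_swap h hv
    exact ⟨g, hge, hgg, hinv g hge hdet z hz, h.RR_eq.2 ⟨inPl_map hge hgv h4, inPl_map hge hgv h5⟩⟩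
  have hne : (Slc e u L).Nonempty := by
    obtain ⟨z, hz⟩ := hL.nonempty
    obtain ⟨v, hv, h4, h5⟩ := hplane z hz
    obtain ⟨g, -, -, hg⟩ := hmove z hz v hv h4 h5
    exact ⟨_, hg⟩
  have hS := h.slice_closed hn hL hRL hne
  have hInT : ∀ z ∈ Slc e u L, InT e u z := by
    intro z hz
    obtain ⟨h4, h5⟩ := cot_sph.1 (hL.sub hz.1)
    obtain ⟨h6, h7⟩ := h.RR_eq.1 hz.2
    exact ⟨h4, h6, h7, h5⟩
  have hSS : ∀ z ∈ Slc e u L, SS u z ∈ Slc e u L := by
    intro z hz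
    have h4 := h.InT_SS (hInT z hz)
    exact ⟨hSL z hz.1, h.RR_eq.2 ⟨h4.p1, h4.p2⟩⟩
  obtain ⟨D, hDQ, hDL, hDX⟩ := exists_base' h.circ_closed hS (h.slice_emb hS.sub)
  obtain ⟨Λ⟩ := D.exists_leaf
  obtain ⟨γ, hγ⟩ := exists_curve h Λ hDQ hDX (by rw [hDL]; exact hSS)
  rw [hDL] at hγ
  obtain ⟨c, hc, hc1, hc2⟩ := hγ.exists_arc h hInT
  refine ham_of_arc he h.w1 h.vw hc fun z => ?_
  constructor
  · intro hz
    obtain ⟨h4, h5⟩ := cot_sph.1 (hL.sub hz)
    obtain ⟨v, hv, h6, h7⟩ := hplane z hz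
    refine ⟨h4, h5, ⟨v, hv.w1, hv.vw, h6, h7⟩, ?_⟩
    obtain ⟨g, hge, -, hg⟩ := hmove z hz v hv h6 h7
    obtain ⟨τ, hτ, hcτ⟩ := hc1 _ hg
    exact ⟨τ, hτ, by rw [hcτ, wt_map hge]⟩
  · rintro ⟨h4, h5, ⟨v, hv, hev, h6, h7⟩, τ, hτ, hcτ⟩
    obtain ⟨z₀, hz₀, hwz₀⟩ := hc2 τ hτ
    obtain ⟨g, hge, hgv, hgg, hdet⟩ := exists_swap h ⟨he, hv, hev⟩
    have hT : InT e u (g z.1, g z.2) :=
      ⟨(g.norm_map _).trans h4, inPl_map hge hgv h6, inPl_map hge hgv h7,
        (g.inner_map_map _ _).trans h5⟩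
    have h8 : (g z.1, g z.2) ∈ L := by
      rcases h.eq_or_of_wt hT (hInT z₀ hz₀) (by rw [wt_map hge, ← hcτ, hwz₀]) with h9 | h9
      · rw [h9]
        exact hz₀.1
      · rw [h9]
        exact hSL _ hz₀.1
    have h9 := hinv g hge hdet _ h8
    simp only [hgg] at h9
    exact h9

end Vale.Agent.P220.R2.H180
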