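import Vale.Agent.P220.R2.H180.Iso

/-!
# Rotations act with vanishing moment map on exact Lagrangians
-/

open Set Filter Topology
open scoped ContDiff

set_option linter.unusedSectionVars false

namespace Vale.Agent.P220.R2.H180

open H57

variable {E : Type} [NormedAddCommGroup E] [InnerProductSpace ℝ E] [FiniteDimensional ℝ E]

/-- the rotation by the angle `t` in the plane of `v` and `w` -/
noncomputable def rt (v w : E) (t : ℝ) (x : E) : E :=
  x + (((Real.cos t - 1) * inner ℝ v x - Real.sin t * inner ℝ w x) • v +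
    ((Real.cos t - 1) * inner ℝ w x + Real.sin t * inner ℝ v x) • w)

/-- orthonormal vectors -/
structure Orth (v w : E) : Prop where
  v1 : ‖v‖ = 1
  w1 : ‖w‖ = 1
  vw : inner ℝ v w = (0 : ℝ)

namespace Orth

variable {v w : E} (h : Orth v w)

include h

theorem vv : inner ℝ v v = (1 : ℝ) := e_e h.v1
theorem ww : inner ℝ w w = (1 : ℝ) := e_e h.w1
theorem wv : inner ℝ w v = (0 : ℝ) := by rw [real_inner_comm]; exact h.vw

theorem half_norm (t : ℝ) : ‖Real.cos (t / 2) • v + Real.sin (t / 2) • w‖ = 1 := by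
  rw [← sq_eq_sq₀ (norm_nonneg _) zero_le_one, ← real_inner_self_eq_norm_sq]
  simp only [inner_add_left, inner_add_right, inner_smul_left, inner_smul_right, h.vv, h.ww, h.wv,
    h.vw]
  have := Real.sin_sq_add_cos_sq (t / 2)
  simp
  linarith

/-- the rotation as an isometry -/
noncomputable def _root_.Vale.Agent.P220.R2.H180.rtE (v w : E) (t : ℝ) : E ≃ₗᵢ[ℝ] E :=
  (Refl v).trans (Refl (Real.cos (t / 2) • v + Real.sin (t / 2) • w))

theorem rtE_apply (t : ℝ) (x : E) : rtE v w t x = rt v w t x := by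
  have h1 : Real.cos t = 2 * Real.cos (t / 2) ^ 2 - 1 := by
    rw [← Real.cos_two_mul]; congr 1; ring
  have h2 : Real.sin t = 2 * Real.sin (t / 2) * Real.cos (t / 2) := by
    rw [← Real.sin_two_mul]; congr 1; ring
  have h3 := Real.sin_sq_add_cos_sq (t / 2)
  show Refl (Real.cos (t / 2) • v + Real.sin (t / 2) • w) (Refl v x) = rt v w t x
  rw [Refl_apply (h.half_norm t), Refl_apply h.v1]
  simp only [inner_add_left, inner_smul_left, inner_sub_right, inner_smul_right, h.vv, h.wv]
  unfold rt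
  rw [h1, h2]
  simp only [conj_trivial, mul_one, mul_zero]
  set c := Real.cos (t / 2)
  set s := Real.sin (t / 2)
  set a := (inner ℝ v x : ℝ)
  set b := (inner ℝ w x : ℝ)
  have e1 : s ^ 2 = 1 - c ^ 2 := by linarith
  have e2 : (2 * c ^ 2 - 1 - 1) * b + 2 * s * c * a = -2 * s ^ 2 * b + 2 * s * c * a := by
    rw [e1]; ring
  rw [e2]
  module

theorem rtE_det (t : ℝ) : LinearMap.det ((rtE v w t).toLinearEquiv : E →ₗ[ℝ] E) = 1 := by
  have h1 : ((rtE v w t).toLinearEquiv : E →ₗ[ℝ] E) =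
      ((Refl (Real.cos (t / 2) • v + Real.sin (t / 2) • w)).toLinearEquiv : E →ₗ[ℝ] E) ∘ₗ
        ((Refl v).toLinearEquiv : E →ₗ[ℝ] E) := rfl
  rw [h1, LinearMap.det_comp, Refl_det (h.half_norm t), Refl_det h.v1]
  norm_num

theorem rt_fix {e : E} (hev : inner ℝ v e = (0 : ℝ)) (hew : inner ℝ w e = (0 : ℝ)) (t : ℝ) :
    rt v w t e = e := by
  unfold rt
  rw [hev, hew]
  simp

theorem rt_deriv (x : E) (t : ℝ) : HasDerivAt (fun t => rt v w t x)
    ((-Real.sin t * inner ℝ v x - Real.cos t * inner ℝ w x) • v +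
      (-Real.sin t * inner ℝ w x + Real.cos t * inner ℝ v x) • w) t := by
  have h1 := ((Real.hasDerivAt_cos t).sub_const 1)
  have h2 := (((h1.mul_const (inner ℝ v x)).sub ((Real.hasDerivAt_sin t).mul_const
    (inner ℝ w x))).smul_const v).add (((h1.mul_const (inner ℝ w x)).add
    ((Real.hasDerivAt_sin t).mul_const (inner ℝ v x))).smul_const w)
  exact h2.const_add x

theorem rt_smooth (x : E) : ContDiff ℝ ∞ fun t => rt v w t x := by
  have c1 : ContDiff ℝ ∞ fun t : ℝ => Real.cos t - 1 := Real.contDiff_cos.sub contDiff_const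
  have c2 : ContDiff ℝ ∞ fun t : ℝ => Real.sin t := Real.contDiff_sin
  exact contDiff_const.add ((((c1.mul contDiff_const).sub (c2.mul contDiff_const)).smul
    contDiff_const).add (((c1.mul contDiff_const).add (c2.mul contDiff_const)).smul contDiff_const))

/-- the moment map vanishes -/
theorem moment {e : E} (hev : inner ℝ e v = (0 : ℝ)) (hew : inner ℝ e w = (0 : ℝ)) {n : ℕ}
    {Q : Set E} {L : Set (E × E)} (hL : IsClosedExactLagrangian n Q L) (hr : RotInv e L)
    {z : E × E} (hz : z ∈ L) : (inner ℝ v z.1 * inner ℝ w z.2 : ℝ) = inner ℝ w z.1 * inner ℝ v z.2 := by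
  obtain ⟨f, hf, hex⟩ := hL.exact
  have hve : inner ℝ v e = (0 : ℝ) := by rw [real_inner_comm]; exact hev
  have hwe : inner ℝ w e = (0 : ℝ) := by rw [real_inner_comm]; exact hew
  set γ : ℝ → E × E := fun t => (rt v w t z.1, rt v w t z.2) with hγ
  have hγs : ContDiff ℝ ∞ γ := (h.rt_smooth z.1).prodMk (h.rt_smooth z.2)
  have hγL : ∀ t, γ t ∈ L := by
    intro t
    have h1 := hr (rtE v w t) (by rw [h.rtE_apply, h.rt_fix hve hwe]) (h.rtE_det t) z hz
    rwa [h.rtE_apply, h.rtE_apply] at h1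
  have hγd : ∀ t, HasDerivAt γ (((-Real.sin t * inner ℝ v z.1 - Real.cos t * inner ℝ w z.1) • v +
      (-Real.sin t * inner ℝ w z.1 + Real.cos t * inner ℝ v z.1) • w),
      ((-Real.sin t * inner ℝ v z.2 - Real.cos t * inner ℝ w z.2) • v +
      (-Real.sin t * inner ℝ w z.2 + Real.cos t * inner ℝ v z.2) • w)) t := fun t =>
    (h.rt_deriv z.1 t).prodMk (h.rt_deriv z.2 t)
  set k : ℝ := inner ℝ v z.1 * inner ℝ w z.2 - inner ℝ w z.1 * inner ℝ v z.2 with hk
  have hfd : ∀ t, HasDerivAt (fun t => f (γ t) - t * k) 0 t := by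
    intro t
    have h1 : HasDerivAt (fun t => f (γ t)) _ t :=
      (hf.differentiable (by simp) (γ t)).hasFDerivAt.comp_hasDerivAt t (hγd t)
    have h2 : (((-Real.sin t * inner ℝ v z.1 - Real.cos t * inner ℝ w z.1) • v +
      (-Real.sin t * inner ℝ w z.1 + Real.cos t * inner ℝ v z.1) • w),
      ((-Real.sin t * inner ℝ v z.2 - Real.cos t * inner ℝ w z.2) • v +
      (-Real.sin t * inner ℝ w z.2 + Real.cos t * inner ℝ v z.2) • w)) ∈ Tan L (γ t) := by
      refine ⟨fun s => γ (t + s), hγs.comp (contDiff_const.add contDiff_id), fun s => hγL _,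
        by simp, ?_⟩
      have h3 := (hγd (t + 0)).scomp (0 : ℝ) ((hasDerivAt_id (0 : ℝ)).const_add t)
      simp only [one_smul, add_zero] at h3
      exact h3.deriv
    rw [hex _ (hγL t) _ h2] at h1
    have h4 := h1.sub ((hasDerivAt_id t).mul_const k)
    refine h4.congr_deriv ?_
    simp only [lam, hγ, rt, inner_add_left, inner_add_right, inner_smul_left, inner_smul_right,
      h.vv, h.ww, h.vw, h.wv, hk, conj_trivial]
    have h5 := Real.sin_sq_add_cos_sq t
    rw [real_inner_comm v z.2, real_inner_comm w z.2]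
    linear_combination (inner ℝ v z.1 * inner ℝ w z.2 - inner ℝ w z.1 * inner ℝ v z.2) * h5
  have hc := is_const_of_deriv_eq_zero (fun t => (hfd t).differentiableAt)
    (fun t => (hfd t).deriv) (2 * Real.pi) 0
  have h0 : γ (2 * Real.pi) = γ 0 := by simp [hγ, rt]
  simp only [h0, zero_mul, sub_zero] at hc
  have h6 : 2 * Real.pi * k = 0 := by linarith
  have h7 : k = 0 := by
    rcases mul_eq_zero.1 h6 with h8 | h8
    · exact absurd h8 (by positivity)
    · exact h8
  rw [hk] at h7
  linarith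

end Orth

theorem InPl.smul {e u x : E} (he : ‖e‖ = 1) (hu : ‖u‖ = 1) (heu : inner ℝ e u = (0 : ℝ)) (a b : ℝ)
    (hx : x = a • e + b • u) : InPl e u x := by
  have ue : inner ℝ u e = (0 : ℝ) := by rw [real_inner_comm]; exact heu
  unfold InPl
  subst hx
  simp only [inner_add_right, inner_smul_right, e_e he, e_e hu, heu, ue]
  simp

/-- every point of `L` lies in a plane through `e` -/
theorem exists_plane {e u₀ : E} (he : ‖e‖ = 1) (hu₀ : ‖u₀‖ = 1) (heu₀ : inner ℝ e u₀ = (0 : ℝ))
    {n : ℕ} {Q : Set E} {L : Set (E × E)} (hL : IsClosedExactLagrangian n Q L) (hr : RotInv e L)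
    {z : E × E} (hz : z ∈ L) :
    ∃ u, ‖u‖ = 1 ∧ inner ℝ e u = (0 : ℝ) ∧ InPl e u z.1 ∧ InPl e u z.2 := by
  have hunit : ∀ x : E, x ≠ 0 → ‖‖x‖⁻¹ • x‖ = 1 := fun x hx => by
    rw [norm_smul, norm_inv, norm_norm]
    exact inv_mul_cancel₀ (norm_ne_zero_iff.2 hx)
  have hdec : ∀ x : E, x = (inner ℝ e x : ℝ) • e + pr e x := fun x => by unfold pr; abel
  by_cases h1 : pr e z.1 = 0
  · by_cases h2 : pr e z.2 = 0
    · refine ⟨u₀, hu₀, heu₀, InPl.smul he hu₀ heu₀ (inner ℝ e z.1) 0 ?_,
        InPl.smul he hu₀ heu₀ (inner ℝ e z.2) 0 ?_⟩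
      · rw [zero_smul, ← h1]; exact hdec _
      · rw [zero_smul, ← h2]; exact hdec _
    · have hu := hunit _ h2
      have heu : inner ℝ e (‖pr e z.2‖⁻¹ • pr e z.2) = (0 : ℝ) := by
        rw [inner_smul_right, e_pr he, mul_zero]
      refine ⟨_, hu, heu, InPl.smul he hu heu (inner ℝ e z.1) 0 ?_,
        InPl.smul he hu heu (inner ℝ e z.2) ‖pr e z.2‖ ?_⟩
      · rw [zero_smul, ← h1]; exact hdec _
      · rw [smul_smul, mul_inv_cancel₀ (norm_ne_zero_iff.2 h2), one_smul]; exact hdec _
  · have hu := hunit _ h1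
    have heu : inner ℝ e (‖pr e z.1‖⁻¹ • pr e z.1) = (0 : ℝ) := by
      rw [inner_smul_right, e_pr he, mul_zero]
    set u : E := ‖pr e z.1‖⁻¹ • pr e z.1 with hudef
    have hq : z.1 = (inner ℝ e z.1 : ℝ) • e + ‖pr e z.1‖ • u := by
      rw [hudef, smul_smul, mul_inv_cancel₀ (norm_ne_zero_iff.2 h1), one_smul]; exact hdec _
    refine ⟨u, hu, heu, InPl.smul he hu heu _ _ hq, ?_⟩
    set d : E := pr e z.2 - (inner ℝ u z.2 : ℝ) • u with hd
    by_cases h2 : d = 0
    · unfold InPl
      have h3 : pr e z.2 = (inner ℝ u z.2 : ℝ) • u := sub_eq_zero.1 h2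
      rw [← h3]
      exact hdec _
    · exfalso
      have hw := hunit _ h2
      have ue : inner ℝ u e = (0 : ℝ) := by rw [real_inner_comm]; exact heu
      have hed : inner ℝ e d = (0 : ℝ) := by
        rw [hd, inner_sub_right, inner_smul_right, heu, e_pr he]; ring
      have hud : inner ℝ u d = (0 : ℝ) := by
        rw [hd, inner_sub_right, inner_smul_right, e_e hu, pr, inner_sub_right, inner_smul_right, ue]
        ring
      have hdz : inner ℝ d z.2 = (‖d‖ ^ 2 : ℝ) := by
        rw [← real_inner_self_eq_norm_sq]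
        have h4 : z.2 = (inner ℝ e z.2 : ℝ) • e + ((inner ℝ u z.2 : ℝ) • u + d) := by
          rw [hd, pr]; abel
        have hde : inner ℝ d e = (0 : ℝ) := by rw [real_inner_comm]; exact hed
        have hdu : inner ℝ d u = (0 : ℝ) := by rw [real_inner_comm]; exact hud
        conv_lhs => rw [h4]
        rw [inner_add_right, inner_add_right, inner_smul_right, inner_smul_right, hde, hdu]
        ring
      set w : E := ‖d‖⁻¹ • d with hwdef
      have ho : Orth u w := ⟨hu, hw, by rw [hwdef, inner_smul_right, hud, mul_zero]⟩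
      have hew : inner ℝ e w = (0 : ℝ) := by rw [hwdef, inner_smul_right, hed, mul_zero]
      have h5 := ho.moment heu hew hL hr hz
      have hwe : inner ℝ w e = (0 : ℝ) := by rw [real_inner_comm]; exact hew
      have h6 : inner ℝ w z.1 = (0 : ℝ) := by
        rw [hq, inner_add_right, inner_smul_right, inner_smul_right, hwe, ho.wv]; ring
      have h7 : inner ℝ u z.1 = (‖pr e z.1‖ : ℝ) := by
        conv_lhs => rw [hq]
        rw [inner_add_right, inner_smul_right, inner_smul_right, ue, e_e hu]; ring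
      have h8 : inner ℝ w z.2 = (‖d‖ : ℝ) := by
        rw [hwdef, inner_smul_left, hdz]
        have : ‖d‖ ≠ 0 := norm_ne_zero_iff.2 h2
        simp
        field_simp
      rw [h6, h7, h8, zero_mul] at h5
      rcases mul_eq_zero.1 h5 with h9 | h9
      · exact h1 (norm_eq_zero.1 h9)
      · exact h2 (norm_eq_zero.1 h9)

/-- a unit vector orthogonal to `e` and `u`, in dimension at least three -/
theorem exists_third {e u : E} (h3 : 3 ≤ Module.finrank ℝ E) :
    ∃ w : E, ‖w‖ = 1 ∧ inner ℝ e w = (0 : ℝ) ∧ inner ℝ u w = (0 : ℝ) := by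
  set K : Submodule ℝ E := Submodule.span ℝ {e, u} with hK
  have h1 : Module.finrank ℝ K ≤ 2 := by
    classical
    have h5 := finrank_span_finset_le_card (R := ℝ) ({e, u} : Finset E)
    rw [Finset.coe_pair] at h5
    exact h5.trans Finset.card_le_two
  have h2 := K.finrank_add_finrank_orthogonal
  have h4 : Kᗮ ≠ ⊥ := by
    intro h5
    rw [h5, finrank_bot] at h2
    omega
  obtain ⟨x, hx, hx0⟩ := Submodule.exists_mem_ne_zero_of_ne_bot h4
  refine ⟨‖x‖⁻¹ • x, ?_, ?_, ?_⟩
  · rw [norm_smul, norm_inv, norm_norm]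
    exact inv_mul_cancel₀ (norm_ne_zero_iff.2 hx0)
  · rw [inner_smul_right, hx e (Submodule.subset_span (by simp)), mul_zero]
  · rw [inner_smul_right, hx u (Submodule.subset_span (by simp)), mul_zero]

/-- In dimension at least three `L` is invariant under all isometries of determinant `± 1`
that fix `e`. -/
theorem inv_of_det {e u₀ : E} (he : ‖e‖ = 1) (hu₀ : ‖u₀‖ = 1) (heu₀ : inner ℝ e u₀ = (0 : ℝ))
    (h3 : 3 ≤ Module.finrank ℝ E) {n : ℕ} {Q : Set E} {L : Set (E × E)}
    (hL : IsClosedExactLagrangian n Q L) (hr : RotInv e L) {g : E ≃ₗᵢ[ℝ] E} (hg : g e = e)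
    (hdet : LinearMap.det (g.toLinearEquiv : E →ₗ[ℝ] E) = 1 ∨
      LinearMap.det (g.toLinearEquiv : E →ₗ[ℝ] E) = -1) {z : E × E} (hz : z ∈ L) :
    (g z.1, g z.2) ∈ L := by
  rcases hdet with h | h
  · exact hr g hg h z hz
  · obtain ⟨u, hu, heu, h1, h2⟩ := exists_plane he hu₀ heu₀ hL hr hz
    obtain ⟨w, hw, hew, huw⟩ := exists_third (e := e) (u := u) h3
    have hwe : inner ℝ w e = (0 : ℝ) := by rw [real_inner_comm]; exact hew
    have hwu : inner ℝ w u = (0 : ℝ) := by rw [real_inner_comm]; exact huw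
    have hfix : ∀ x, InPl e u x → Refl w x = x := by
      intro x hx
      rw [Refl_apply hw, hx]
      simp only [inner_add_right, inner_smul_right, hwe, hwu]
      simp
    have hfe : Refl w e = e := hfix e (InPl.smul he hu heu 1 0 (by simp))
    have h4 := hr ((Refl w).trans g) (by
      show g (Refl w e) = e
      rw [hfe, hg]) (by
      have : (((Refl w).trans g).toLinearEquiv : E →ₗ[ℝ] E) =
        (g.toLinearEquiv : E →ₗ[ℝ] E) ∘ₗ ((Refl w).toLinearEquiv : E →ₗ[ℝ] E) := rfl
      rw [this, LinearMap.det_comp, h, Refl_det hw]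
      norm_num) z hz
    have h5 : ((Refl w).trans g) z.1 = g z.1 := by
      show g (Refl w z.1) = g z.1
      rw [hfix _ h1]
    have h6 : ((Refl w).trans g) z.2 = g z.2 := by
      show g (Refl w z.2) = g z.2
      rw [hfix _ h2]
    rwa [h5, h6] at h4

end Vale.Agent.P220.R2.H180
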