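import Vale.Agent.P220.R2.H180.Moment

/-!
# The slice of an invariant exact Lagrangian in `T*S¹`
-/

open Set Filter Topology
open scoped ContDiff

set_option linter.unusedSectionVars false

namespace Vale.Agent.P220.R2.H180

open H57

variable {E : Type} [NormedAddCommGroup E] [InnerProductSpace ℝ E] [FiniteDimensional ℝ E]

/-- an exact Lagrangian is isotropic -/
theorem isotropic {L UL : Set (E × E)} {ρ : E × E → E × E} (hL : IsRet L UL ρ) {f : E × E → ℝ}
    (hf : ContDiff ℝ ∞ f) (hex : ∀ z ∈ L, ∀ v ∈ Tn ρ z, fderiv ℝ f z v = inner ℝ z.2 v.1)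
    {z : E × E} (hz : z ∈ L) {v w : E × E} (hv : v ∈ Tn ρ z)
    (hw : w ∈ Tn ρ z) : (inner ℝ v.2 w.1 : ℝ) = inner ℝ w.2 v.1 := by
  set g : E × E → ℝ := fun x => f (ρ x) with hg
  have hgs : ContDiff ℝ ∞ g := hf.comp hL.smooth
  have hρd : ∀ x, HasFDerivAt ρ (fderiv ℝ ρ x) x := hL.hasFDerivAt
  have hg1 : ∀ x, fderiv ℝ g x = (fderiv ℝ f (ρ x)).comp (fderiv ℝ ρ x) := fun x =>
    (((hf.differentiable (by simp) (ρ x)).hasFDerivAt).comp x (hρd x)).fderiv
  have hρ2 : Differentiable ℝ (fderiv ℝ ρ) :=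
    (hL.smooth.fderiv_right (m := ∞) (by simp)).differentiable (by simp)
  have hg2 : Differentiable ℝ (fderiv ℝ g) :=
    (hgs.fderiv_right (m := ∞) (by simp)).differentiable (by simp)
  -- the derivative of `g` near `z`
  have hU : UL ∈ 𝓝 z := hL.isOpen.mem_nhds (hL.sub hz)
  have hnear : ∀ u : E × E, (fun x => fderiv ℝ g x u) =ᶠ[𝓝 z]
      fun x => inner ℝ (ρ x).2 ((fderiv ℝ ρ x u).1) := by
    intro u
    filter_upwards [hU] with x hx
    have h0 : ρ x ∈ L := hL.maps x hx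
    -- the derivative of the retraction maps to the tangent space at the image
    have h1 : fderiv ℝ ρ x u ∈ Tn ρ (ρ x) := by
      have h2 : HasFDerivAt (fun y => ρ (ρ y)) ((fderiv ℝ ρ (ρ x)).comp (fderiv ℝ ρ x)) x :=
        (hρd (ρ x)).comp x (hρd x)
      have h3 : (fun y => ρ (ρ y)) =ᶠ[𝓝 x] ρ := by
        filter_upwards [hL.isOpen.mem_nhds hx] with y hy
        exact hL.fix _ (hL.maps y hy)
      have h4 := h2.unique ((hρd x).congr_of_eventuallyEq h3)
      exact congrArg (fun C => C u) h4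
    rw [hg1]
    exact hex _ h0 _ h1
  have hsecond : ∀ u w : E × E, fderiv ℝ (fderiv ℝ g) z w u =
      inner ℝ (fderiv ℝ ρ z w).2 (fderiv ℝ ρ z u).1 +
        inner ℝ z.2 (fderiv ℝ (fderiv ℝ ρ) z w u).1 := by
    intro u w
    have h1 : HasFDerivAt (fun x => fderiv ℝ g x u)
        ((ContinuousLinearMap.apply ℝ ℝ u).comp (fderiv ℝ (fderiv ℝ g) z)) z :=
      (ContinuousLinearMap.apply ℝ ℝ u).hasFDerivAt.comp z (hg2 z).hasFDerivAt
    have h2 : HasFDerivAt (fun x => (ρ x).2)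
        ((ContinuousLinearMap.snd ℝ E E).comp (fderiv ℝ ρ z)) z :=
      hasFDerivAt_snd.comp z (hρd z)
    have h3 : HasFDerivAt (fun x => (fderiv ℝ ρ x u).1)
        ((ContinuousLinearMap.fst ℝ E E).comp
          ((ContinuousLinearMap.apply ℝ (E × E) u).comp (fderiv ℝ (fderiv ℝ ρ) z))) z :=
      hasFDerivAt_fst.comp z
        ((ContinuousLinearMap.apply ℝ (E × E) u).hasFDerivAt.comp z (hρ2 z).hasFDerivAt)
    have h4 := h2.inner ℝ h3
    have h5 := h1.unique (h4.congr_of_eventuallyEq (hnear u))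
    have h6 := congrArg (fun C => C w) h5
    simp only [ContinuousLinearMap.comp_apply, ContinuousLinearMap.apply_apply,
      ContinuousLinearMap.prod_apply, fderivInnerCLM_apply, ContinuousLinearMap.coe_snd',
      ContinuousLinearMap.coe_fst', hL.fix z hz] at h6
    rw [h6]
    ring
  have hsym : ∀ u w : E × E, fderiv ℝ (fderiv ℝ g) z w u = fderiv ℝ (fderiv ℝ g) z u w := by
    intro u w
    have := (hgs.contDiffAt (x := z)).isSymmSndFDerivAt (by simpa using ENat.LEInfty.out)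
    exact this w u
  have hsymρ : ∀ u w : E × E, fderiv ℝ (fderiv ℝ ρ) z w u = fderiv ℝ (fderiv ℝ ρ) z u w := by
    intro u w
    have := (hL.smooth.contDiffAt (x := z)).isSymmSndFDerivAt (by simpa using ENat.LEInfty.out)
    exact this w u
  have h7 := hsecond w v
  have h8 := hsecond v w
  rw [hsym, h8, hsymρ] at h7
  have h9 := add_right_cancel h7
  rw [mem_Tn.1 hv, mem_Tn.1 hw] at h9
  exact h9.symm

/-! ### the plane of `e` and `u` -/

/-- the plane -/
def Pl (e u : E) : Submodule ℝ E := Submodule.span ℝ {e, u}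

/-- the rotation field -/
noncomputable def XF (e u : E) (x : E) : E := (inner ℝ e x : ℝ) • u - (inner ℝ u x : ℝ) • e

namespace Orth

variable {e u : E} (h : Orth e u)

include h

theorem mem_Pl {x : E} : x ∈ Pl e u ↔ InPl e u x := by
  constructor
  · intro hx
    obtain ⟨a, b, hab⟩ := Submodule.mem_span_pair.1 hx
    exact InPl.smul h.v1 h.w1 h.vw a b hab.symm
  · intro hx
    exact Submodule.mem_span_pair.2 ⟨_, _, hx.symm⟩

theorem finrank_Pl : Module.finrank ℝ (Pl e u) = 2 := by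
  have h1 : LinearIndependent ℝ ![e, u] := by
    rw [LinearIndependent.pair_iff]
    intro s t hst
    have h2 := congrArg (fun x => (inner ℝ e x : ℝ)) hst
    have h3 := congrArg (fun x => (inner ℝ u x : ℝ)) hst
    simp only [inner_add_right, inner_smul_right, h.vv, h.ww, h.vw, h.wv, inner_zero_right] at h2 h3
    constructor <;> linarith
  have h2 := finrank_span_eq_card h1
  have h3 : Set.range ![e, u] = {e, u} := by
    rw [Matrix.range_cons, Matrix.range_cons, Matrix.range_empty]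
    simp [Set.pair_comm]
  rw [h3] at h2
  unfold Pl
  simpa using h2

theorem finrank_Pl_orth {n : ℕ} (hn : Module.finrank ℝ E = n + 1) :
    Module.finrank ℝ (Pl e u)ᗮ + 1 = n := by
  have h1 := (Pl e u).finrank_add_finrank_orthogonal
  rw [h.finrank_Pl, hn] at h1
  omega

theorem refl_eq {x : E} : (Pl e u).reflection x = x ↔ InPl e u x := by
  rw [Submodule.reflection_eq_self_iff, h.mem_Pl]

theorem XF_in (x : E) : InPl e u (XF e u x) := by
  refine InPl.smul h.v1 h.w1 h.vw (-(inner ℝ u x)) (inner ℝ e x) ?_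
  unfold XF
  rw [neg_smul]
  abel

theorem orth_XF (x : E) : inner ℝ x (XF e u x) = (0 : ℝ) := by
  unfold XF
  rw [inner_sub_right, inner_smul_right, inner_smul_right, real_inner_comm x u,
    real_inner_comm x e]
  ring

theorem sq_sum {x : E} (hx : InPl e u x) : (inner ℝ e x : ℝ) ^ 2 + (inner ℝ u x : ℝ) ^ 2 = ‖x‖ ^ 2 := by
  rw [← real_inner_self_eq_norm_sq x]
  have h1 : (inner ℝ x x : ℝ) = inner ℝ ((inner ℝ e x : ℝ) • e + (inner ℝ u x : ℝ) • u)
    ((inner ℝ e x : ℝ) • e + (inner ℝ u x : ℝ) • u) := by rw [← hx]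
  rw [h1]
  simp only [inner_add_left, inner_add_right, inner_smul_left, inner_smul_right, h.vv, h.ww, h.vw,
    h.wv]
  simp
  ring

theorem inner_in {x y : E} (hx : InPl e u x) (hy : InPl e u y) :
    (inner ℝ x y : ℝ) = inner ℝ e x * inner ℝ e y + inner ℝ u x * inner ℝ u y := by
  have h1 : (inner ℝ x y : ℝ) = inner ℝ ((inner ℝ e x : ℝ) • e + (inner ℝ u x : ℝ) • u)
    ((inner ℝ e y : ℝ) • e + (inner ℝ u y : ℝ) • u) := by rw [← hx, ← hy]
  rw [h1]
  simp only [inner_add_left, inner_add_right, inner_smul_left, inner_smul_right, h.vv, h.ww, h.vw,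
    h.wv]
  simp
  ring

/-- a vector of the plane orthogonal to `q` is a multiple of the rotation field -/
theorem eq_XF {q x : E} (hq : InPl e u q) (hq1 : ‖q‖ = 1) (hx : InPl e u x)
    (hqx : inner ℝ q x = (0 : ℝ)) : x = (inner ℝ x (XF e u q) : ℝ) • XF e u q := by
  have h1 := h.sq_sum hq
  rw [hq1] at h1
  rw [h.inner_in hq hx] at hqx
  have h2 : (inner ℝ x (XF e u q) : ℝ) = inner ℝ e q * inner ℝ u x - inner ℝ u q * inner ℝ e x := by
    unfold XF
    rw [inner_sub_right, inner_smul_right, inner_smul_right, real_inner_comm u x,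
      real_inner_comm e x]
  rw [h2]
  unfold XF
  conv_lhs => rw [hx]
  set a := (inner ℝ e q : ℝ)
  set b := (inner ℝ u q : ℝ)
  set c := (inner ℝ e x : ℝ)
  set d := (inner ℝ u x : ℝ)
  have e1 : c = -((a * d - b * c) * b) := by linear_combination (-c) * h1 + a * hqx
  have e2 : d = (a * d - b * c) * a := by linear_combination (-d) * h1 + b * hqx
  rw [smul_sub, smul_smul, smul_smul, ← e2]
  have e3 : (a * d - b * c) * b = -c := by linarith
  rw [e3, neg_smul, sub_neg_eq_add, add_comm]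

theorem XF_ne {q : E} (hq : InPl e u q) (hq1 : ‖q‖ = 1) : XF e u q ≠ 0 := by
  intro h0
  have h1 := h.sq_sum hq
  have h2 := congrArg (fun x => (inner ℝ u x : ℝ)) h0
  have h3 := congrArg (fun x => (inner ℝ e x : ℝ)) h0
  simp only [XF, inner_sub_right, inner_smul_right, h.vv, h.ww, h.vw, h.wv, inner_zero_right] at h2 h3
  rw [hq1] at h1
  have h4 : (inner ℝ e q : ℝ) = 0 := by linarith
  have h5 : (inner ℝ u q : ℝ) = 0 := by linarith
  rw [h4, h5] at h1
  norm_num at h1

end Orth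

theorem InPl.add {e u x y : E} (hx : InPl e u x) (hy : InPl e u y) : InPl e u (x + y) := by
  unfold InPl at *
  rw [inner_add_right, inner_add_right]
  conv_lhs => rw [hx, hy]
  module

theorem InPl.smul' {e u x : E} (a : ℝ) (hx : InPl e u x) : InPl e u (a • x) := by
  unfold InPl at *
  rw [inner_smul_right, inner_smul_right]
  conv_lhs => rw [hx]
  module

/-- the circle -/
def Circ (e u : E) : Set E := {q | q ∈ Sph E ∧ (Pl e u).reflection q = q}

/-- the reflection of `T*S` -/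
noncomputable def RR (e u : E) : (E × E) →L[ℝ] (E × E) :=
  ((Pl e u).reflection : E →L[ℝ] E).prodMap ((Pl e u).reflection : E →L[ℝ] E)

theorem RR_apply (e u : E) (z : E × E) :
    RR e u z = ((Pl e u).reflection z.1, (Pl e u).reflection z.2) := rfl

/-- the slice -/
def Slc (e u : E) (L : Set (E × E)) : Set (E × E) := {z | z ∈ L ∧ RR e u z = z}

namespace Orth

variable {e u : E} (h : Orth e u)

include h

theorem mem_Circ {q : E} : q ∈ Circ e u ↔ ‖q‖ = 1 ∧ InPl e u q := by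
  change (q ∈ Sph E ∧ (Pl e u).reflection q = q) ↔ _
  rw [mem_Sph, h.refl_eq]

theorem RR_eq {z : E × E} : RR e u z = z ↔ InPl e u z.1 ∧ InPl e u z.2 := by
  rw [RR_apply, Prod.ext_iff]
  simp only [h.refl_eq]

theorem tan_Circ {q v : E} (hq : q ∈ Circ e u) : v ∈ Tan (Circ e u) q ↔
    InPl e u v ∧ inner ℝ q v = (0 : ℝ) := by
  obtain ⟨h1, h2⟩ := h.mem_Circ.1 hq
  constructor
  · rintro ⟨c, hc, hcS, h0, hd⟩
    refine ⟨?_, (tan_sph h1).1 ⟨c, hc, fun t => (hcS t).1, h0, hd⟩⟩
    have h3 : HasDerivAt c v 0 := by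
      rw [← hd]
      exact (hc.differentiable (by simp) 0).hasDerivAt
    have h4 : HasDerivAt (fun t => (Pl e u).reflection (c t)) ((Pl e u).reflection v) 0 :=
      ((Pl e u).reflection : E →L[ℝ] E).hasFDerivAt.comp_hasDerivAt 0 h3
    have h5 : (fun t => (Pl e u).reflection (c t)) = c := funext fun t => (hcS t).2
    rw [h5] at h4
    exact h.refl_eq.1 (h4.unique h3)
  · rintro ⟨h3, h4⟩
    obtain ⟨c, c1, c2, c3, c4, c5⟩ := curve_sph h1 h4
    refine ⟨c, c1, fun t => ⟨c2 t, ?_⟩, c4, c5.deriv⟩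
    obtain ⟨a, b, hab⟩ := c3 t
    rw [h.refl_eq, hab]
    exact (h2.smul' a).add (h3.smul' b)

theorem circ_closed : IsClosedManifold 1 (Circ e u) := by
  obtain ⟨U, r, hr⟩ := exists_sph_ret (E := E)
  refine ⟨?_, ?_, ?_⟩
  · refine fix_submanifold (R := ((Pl e u).reflection : E →L[ℝ] E)) hr
      (fun y => (Pl e u).reflection_reflection y) (fun y hy => ?_) ?_
    · rw [mem_Sph] at hy ⊢
      exact ((Pl e u).reflection.norm_map y).trans hy
    · intro q hq hRq T hT
      have hq1 := mem_Sph.1 hq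
      have hqP : InPl e u q := h.refl_eq.1 hRq
      have hT' : ∀ v, v ∈ T ↔ inner ℝ q v = (0 : ℝ) ∧ InPl e u v := fun v => by
        rw [hT, Tn_sph hr hq1]
        exact and_congr_right fun _ => h.refl_eq
      refine finrank_eq_one (⟨XF e u q, (hT' _).2 ⟨h.orth_XF q, h.XF_in q⟩⟩ : T) ?_ ?_
      · intro h0
        exact h.XF_ne hqP hq1 (congrArg Subtype.val h0)
      · rintro ⟨w, hw⟩
        obtain ⟨hw1, hw2⟩ := (hT' w).1 hw
        exact ⟨inner ℝ w (XF e u q), Subtype.ext (h.eq_XF hqP hq1 hw2 hw1).symm⟩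
  · have h1 : IsClosed {q : E | (Pl e u).reflection q = q} :=
      isClosed_eq (Pl e u).reflection.continuous continuous_id
    exact (isCompact_sphere (0 : E) 1).inter_right h1
  · have h1 : Circ e u = Set.range fun t : ℝ => Real.cos t • e + Real.sin t • u := by
      ext q
      rw [h.mem_Circ]
      constructor
      · rintro ⟨h1, h2⟩
        have h3 := h.sq_sum h2
        rw [h1] at h3
        set w : ℂ := ⟨inner ℝ e q, inner ℝ u q⟩ with hw
        have hn : ‖w‖ = 1 := by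
          rw [← sq_eq_sq₀ (norm_nonneg _) zero_le_one, ← Complex.normSq_eq_norm_sq,
            Complex.normSq_apply]
          simp only [hw]
          linarith
        have hw0 : w ≠ 0 := by
          intro h4
          rw [h4, norm_zero] at hn
          exact zero_ne_one hn
        refine ⟨Complex.arg w, ?_⟩
        beta_reduce
        rw [Complex.cos_arg hw0, Complex.sin_arg, hn, div_one, div_one]
        exact h2.symm
      · rintro ⟨t, rfl⟩
        have h3 : InPl e u (Real.cos t • e + Real.sin t • u) :=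
          InPl.smul h.v1 h.w1 h.vw _ _ rfl
        refine ⟨?_, h3⟩
        rw [← sq_eq_sq₀ (norm_nonneg _) zero_le_one, ← h.sq_sum h3]
        simp only [inner_add_right, inner_smul_right, h.vv, h.ww, h.vw, h.wv]
        have := Real.sin_sq_add_cos_sq t
        linear_combination this
    rw [h1]
    exact isConnected_range (by fun_prop)

end Orth

/-! ### the dimension of the slice -/

/-- `J (a, b) = (-b, a)` -/
noncomputable def JJ : (E × E) ≃ₗ[ℝ] (E × E) where
  toFun z := (-z.2, z.1)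
  map_add' x y := by
    refine Prod.ext ?_ rfl
    simp only [Prod.snd_add, Prod.fst_add]
    abel
  map_smul' c x := by ext <;> simp
  invFun z := (z.2, -z.1)
  left_inv z := by simp
  right_inv z := by simp

theorem finrank_isotropic {W : Submodule ℝ E} {T : Submodule ℝ (E × E)} (hT : T ≤ W.prod W)
    (hiso : ∀ v ∈ T, ∀ w ∈ T, (inner ℝ v.2 w.1 : ℝ) = inner ℝ w.2 v.1) :
    Module.finrank ℝ T ≤ Module.finrank ℝ W := by
  have h1 : T.map (JJ (E := E) : (E × E) →ₗ[ℝ] (E × E)) ≤ W.prod W := by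
    rintro _ ⟨x, hx, rfl⟩
    obtain ⟨h2, h3⟩ := hT hx
    exact ⟨W.neg_mem h3, h2⟩
  have h2 : T ⊓ T.map (JJ (E := E) : (E × E) →ₗ[ℝ] (E × E)) = ⊥ := by
    rw [eq_bot_iff]
    rintro v ⟨hv, x, hx, rfl⟩
    have h3 := hiso _ hv x hx
    have e1 : ((JJ (E := E) : (E × E) →ₗ[ℝ] (E × E)) x) = (-x.2, x.1) := rfl
    rw [e1] at h3 ⊢
    simp only [inner_neg_right, real_inner_self_eq_norm_sq] at h3
    have h4 : ‖x.1‖ ^ 2 = 0 := by nlinarith [sq_nonneg ‖x.1‖, sq_nonneg ‖x.2‖]
    have h5 : ‖x.2‖ ^ 2 = 0 := by nlinarith [sq_nonneg ‖x.1‖, sq_nonneg ‖x.2‖]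
    have h6 : x.1 = 0 := by simpa using h4
    have h7 : x.2 = 0 := by simpa using h5
    rw [h6, h7]
    simp
  have h3 := Submodule.finrank_sup_add_finrank_inf_eq T (T.map (JJ (E := E) : (E × E) →ₗ[ℝ] (E × E)))
  rw [h2, finrank_bot, LinearEquiv.finrank_map_eq] at h3
  have h4 := Submodule.finrank_mono (sup_le hT h1)
  have h5 : Module.finrank ℝ (W.prod W) ≤ Module.finrank ℝ W + Module.finrank ℝ W := by
    rw [← Module.finrank_prod]
    let f : (W.prod W) →ₗ[ℝ] W × W :=
      LinearMap.prod ((LinearMap.fst ℝ E E ∘ₗ (W.prod W).subtype).codRestrict W (fun x => x.2.1))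
        ((LinearMap.snd ℝ E E ∘ₗ (W.prod W).subtype).codRestrict W (fun x => x.2.2))
    refine LinearMap.finrank_le_finrank_of_injective (f := f) ?_
    intro x y hxy
    have e1 : (f x).1 = (f y).1 := by rw [hxy]
    have e2 : (f x).2 = (f y).2 := by rw [hxy]
    have e3 : x.1.1 = y.1.1 := congrArg Subtype.val e1
    have e4 : x.1.2 = y.1.2 := congrArg Subtype.val e2
    exact Subtype.ext (Prod.ext e3 e4)
  omega

theorem mem_Pl_orth {e u x : E} : x ∈ (Pl e u)ᗮ ↔ (Pl e u).reflection x = -x := by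
  constructor
  · intro hx
    exact Submodule.reflection_mem_subspace_orthogonalComplement_eq_neg hx
  · intro hx
    have h1 : (Pl e u)ᗮ.reflection x = x := by
      rw [Submodule.reflection_orthogonal_apply, hx, neg_neg]
    exact (Submodule.reflection_eq_self_iff x).1 h1

namespace Orth

variable {e u : E} (h : Orth e u)

include h

/-- The tangent space of the slice is a line. -/
theorem slice_dim {n : ℕ} (hn : Module.finrank ℝ E = n + 1) {L UL : Set (E × E)}
    {ρ : E × E → E × E} (hL : IsRet L UL ρ) (hd : ∀ z ∈ L, Module.finrank ℝ (Tn ρ z) = n)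
    (hsub : L ⊆ Cot (Sph E)) {f : E × E → ℝ}
    (hf : ContDiff ℝ ∞ f) (hex : ∀ z ∈ L, ∀ v ∈ Tn ρ z, fderiv ℝ f z v = inner ℝ z.2 v.1)
    (hRL : ∀ z ∈ L, RR e u z ∈ L) {z : E × E} (hz : z ∈ L) (hRz : RR e u z = z)
    {T : Submodule ℝ (E × E)} (hT : ∀ v, v ∈ T ↔ v ∈ Tn ρ z ∧ RR e u v = v) :
    Module.finrank ℝ T = 1 := by
  have hRR : ∀ v, RR e u (RR e u v) = v := fun v => by
    rw [RR_apply, RR_apply, Submodule.reflection_reflection, Submodule.reflection_reflection]
  have hiso : ∀ v ∈ Tn ρ z, ∀ w ∈ Tn ρ z, (inner ℝ v.2 w.1 : ℝ) = inner ℝ w.2 v.1 :=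
    fun v hv w hw => isotropic hL hf hex hz hv hw
  -- invariance of the tangent space
  have hRT : ∀ v ∈ Tn ρ z, RR e u v ∈ Tn ρ z := by
    intro v hv
    rw [← hL.mem_Tan hz] at hv ⊢
    obtain ⟨c, hc, hcS, h0, hdc⟩ := hv
    refine ⟨fun t => RR e u (c t), (RR e u).contDiff.comp hc, fun t => hRL _ (hcS t), by
      beta_reduce
      rw [h0, hRz], ?_⟩
    have h1 : HasDerivAt c v 0 := by
      rw [← hdc]
      exact (hc.differentiable (by simp) 0).hasDerivAt
    exact ((RR e u).hasFDerivAt.comp_hasDerivAt 0 h1).deriv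
  -- the antiinvariant part
  set T' : Submodule ℝ (E × E) := Tn ρ z ⊓ ((Pl e u)ᗮ).prod ((Pl e u)ᗮ) with hT'
  have hT'le : Module.finrank ℝ T' ≤ Module.finrank ℝ (Pl e u)ᗮ :=
    finrank_isotropic inf_le_right (fun v hv w hw => hiso v hv.1 w hw.1)
  have hW := h.finrank_Pl_orth hn
  -- decomposition
  have hsum : T ⊔ T' = Tn ρ z := by
    refine le_antisymm (sup_le (fun v hv => ((hT v).1 hv).1) inf_le_left) ?_
    intro v hv
    have h1 : v = (1 / 2 : ℝ) • (v + RR e u v) + (1 / 2 : ℝ) • (v - RR e u v) := by module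
    rw [h1]
    refine Submodule.add_mem_sup ?_ ?_
    · rw [hT]
      refine ⟨(Tn ρ z).smul_mem _ ((Tn ρ z).add_mem hv (hRT v hv)), ?_⟩
      rw [map_smul, map_add, hRR, add_comm]
    · refine ⟨(Tn ρ z).smul_mem _ ((Tn ρ z).sub_mem hv (hRT v hv)), ?_⟩
      have h2 : RR e u ((1 / 2 : ℝ) • (v - RR e u v)) = -((1 / 2 : ℝ) • (v - RR e u v)) := by
        rw [map_smul, map_sub, hRR]
        module
      rw [RR_apply] at h2
      exact ⟨mem_Pl_orth.2 (congrArg Prod.fst h2), mem_Pl_orth.2 (congrArg Prod.snd h2)⟩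
  have hfin := Submodule.finrank_add_le_finrank_add_finrank T T'
  rw [hsum, hd z hz] at hfin
  -- the upper bound
  obtain ⟨hz1, hz2⟩ := cot_sph.1 (hsub hz)
  obtain ⟨hz3, hz4⟩ := h.RR_eq.1 hRz
  set X := XF e u z.1 with hX
  have hTv : ∀ v ∈ T, InPl e u v.1 ∧ InPl e u v.2 ∧ inner ℝ z.1 v.1 = (0 : ℝ) ∧
      (inner ℝ z.1 v.2 + inner ℝ z.2 v.1 : ℝ) = 0 := by
    intro v hv
    obtain ⟨h1, h2⟩ := (hT v).1 hv
    obtain ⟨h3, h4⟩ := h.RR_eq.1 h2
    rw [← hL.mem_Tan hz] at h1
    obtain ⟨c, hc, hcS, h0, hdc⟩ := h1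
    have h5 : HasDerivAt c v 0 := by
      rw [← hdc]
      exact (hc.differentiable (by simp) 0).hasDerivAt
    have h6 : HasDerivAt (fun t => (c t).1) v.1 0 := (hasFDerivAt_fst (𝕜 := ℝ) (p := c 0)).comp_hasDerivAt (0 : ℝ) h5
    have h7 : HasDerivAt (fun t => (c t).2) v.2 0 := (hasFDerivAt_snd (𝕜 := ℝ) (p := c 0)).comp_hasDerivAt (0 : ℝ) h5
    refine ⟨h3, h4, ?_, ?_⟩
    · have h8 := h6.inner ℝ h6
      have h9 : (fun t => inner ℝ (c t).1 (c t).1 : ℝ → ℝ) = fun _ => 1 := by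
        funext t
        rw [real_inner_self_eq_norm_sq, (cot_sph.1 (hsub (hcS t))).1]
        norm_num
      rw [h9, h0] at h8
      have h10 := h8.unique (hasDerivAt_const _ _)
      rw [real_inner_comm z.1 v.1] at h10
      linarith
    · have h8 := h6.inner ℝ h7
      have h9 : (fun t => inner ℝ (c t).1 (c t).2 : ℝ → ℝ) = fun _ => 0 := by
        funext t
        exact (cot_sph.1 (hsub (hcS t))).2
      rw [h9, h0] at h8
      have h10 := h8.unique (hasDerivAt_const _ _)
      rw [real_inner_comm z.2 v.1] at h10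
      exact h10
  -- a vector of `T` is determined by its coordinates
  have hzero : ∀ v ∈ T, (inner ℝ v.1 X : ℝ) = 0 → (inner ℝ v.2 X : ℝ) = 0 → v = 0 := by
    intro v hv h1 h2
    obtain ⟨h3, h4, h5, h6⟩ := hTv v hv
    have h7 := h.eq_XF hz3 hz1 h3 h5
    rw [← hX, h1, zero_smul] at h7
    rw [h7, inner_zero_right, add_zero] at h6
    have h8 := h.eq_XF hz3 hz1 h4 h6
    rw [← hX, h2, zero_smul] at h8
    exact Prod.ext h7 h8
  have hle : Module.finrank ℝ T ≤ 1 := by
    by_cases hbot : T = ⊥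
    · rw [hbot, finrank_bot]
      exact zero_le_one
    · obtain ⟨v, hv, hv0⟩ := Submodule.exists_mem_ne_zero_of_ne_bot hbot
      refine finrank_le_one (⟨v, hv⟩ : T) ?_
      rintro ⟨w, hw⟩
      set a : ℝ := inner ℝ v.1 X with ha
      set b : ℝ := inner ℝ v.2 X with hb
      set a' : ℝ := inner ℝ w.1 X with ha'
      set b' : ℝ := inner ℝ w.2 X with hb'
      have hab : a ^ 2 + b ^ 2 ≠ 0 := by
        intro h1
        have h2 : a = 0 := by nlinarith [sq_nonneg a, sq_nonneg b]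
        have h3 : b = 0 := by nlinarith [sq_nonneg a, sq_nonneg b]
        exact hv0 (hzero v hv h2 h3)
      obtain ⟨v3, v4, v5, v6⟩ := hTv v hv
      obtain ⟨w3, w4, w5, w6⟩ := hTv w hw
      have hcross : b * a' = b' * a := by
        have h1 := hiso v ((hT v).1 hv).1 w ((hT w).1 hw).1
        have h2 := h.eq_XF hz3 hz1 v3 v5
        have h3 := h.eq_XF hz3 hz1 w3 w5
        rw [← hX, ← ha] at h2
        rw [← hX, ← ha'] at h3
        rw [h2, h3, inner_smul_right, inner_smul_right] at h1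
        rw [← hb, ← hb'] at h1
        linarith
      refine ⟨(a * a' + b * b') / (a ^ 2 + b ^ 2), Subtype.ext ?_⟩
      show ((a * a' + b * b') / (a ^ 2 + b ^ 2)) • v = w
      set k : ℝ := (a * a' + b * b') / (a ^ 2 + b ^ 2) with hk
      have h4 : k • v - w ∈ T := T.sub_mem (T.smul_mem _ hv) hw
      have h5 := hzero _ h4 (by
        rw [Prod.fst_sub, Prod.smul_fst, inner_sub_left, inner_smul_left, ← ha, ← ha']
        simp only [conj_trivial, hk]
        field_simp
        linear_combination (-b) * hcross) (by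
        rw [Prod.snd_sub, Prod.smul_snd, inner_sub_left, inner_smul_left, ← hb, ← hb']
        simp only [conj_trivial, hk]
        field_simp
        linear_combination a * hcross)
      exact sub_eq_zero.1 h5
  omega

/-- The slice is a closed exact Lagrangian in `T*S¹`. -/
theorem slice_closed {n : ℕ} (hn : Module.finrank ℝ E = n + 1) {L : Set (E × E)}
    (hL : IsClosedExactLagrangian n (Sph E) L) (hRL : ∀ z ∈ L, RR e u z ∈ L)
    (hne : (Slc e u L).Nonempty) : IsClosedExactLagrangian 1 (Circ e u) (Slc e u L) := by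
  obtain ⟨U, ρ, hρ, hd⟩ := exists_ret hL.mfd hL.compact
  obtain ⟨f, hf, hex⟩ := hL.exact
  have hRR : ∀ v, RR e u (RR e u v) = v := fun v => by
    rw [RR_apply, RR_apply, Submodule.reflection_reflection, Submodule.reflection_reflection]
  refine ⟨?_, ?_, hne, ?_, f, hf, ?_⟩
  · exact fix_submanifold hρ hRR hRL fun z hz hRz T hT =>
      h.slice_dim hn hρ hd hL.sub hf (fun z hz v hv => hex z hz v ((hρ.mem_Tan hz).2 hv)) hRL hz
        hRz hT
  · have h1 : IsClosed {z : E × E | RR e u z = z} := isClosed_eq (RR e u).continuous continuous_id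
    exact hL.compact.inter_right h1
  · rintro z ⟨hz, hRz⟩
    obtain ⟨h1, h2⟩ := cot_sph.1 (hL.sub hz)
    obtain ⟨h3, h4⟩ := h.RR_eq.1 hRz
    have h5 : z.1 ∈ Circ e u := h.mem_Circ.2 ⟨h1, h3⟩
    exact ⟨h5, (h.tan_Circ h5).2 ⟨h4, h2⟩⟩
  · rintro z hz v ⟨c, hc, hcS, h0, hdc⟩
    exact hex z hz.1 v ⟨c, hc, fun t => (hcS t).1, h0, hdc⟩

theorem slice_emb {L : Set (E × E)} (hsub : Slc e u L ⊆ Cot (Circ e u)) :
    IsMomentumEmbedded (Circ e u) (Slc e u L) (XF e u) := by
  have hz0 : ∀ z ∈ Slc e u L, ‖z.1‖ = 1 ∧ InPl e u z.1 ∧ InPl e u z.2 ∧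
      inner ℝ z.1 z.2 = (0 : ℝ) := by
    intro z hz
    obtain ⟨h1, h2⟩ := hsub hz
    obtain ⟨h3, h4⟩ := h.mem_Circ.1 h1
    obtain ⟨h5, h6⟩ := (h.tan_Circ h1).1 h2
    exact ⟨h3, h4, h5, h6⟩
  refine ⟨?_, ?_, ?_, ?_⟩
  · exact ((contDiff_const.inner ℝ contDiff_id).smul contDiff_const).sub
      ((contDiff_const.inner ℝ contDiff_id).smul contDiff_const)
  · intro q hq
    exact (h.tan_Circ hq).2 ⟨h.XF_in q, h.orth_XF q⟩
  · intro z hz z' hz' h1 h2
    obtain ⟨a1, a2, a3, a4⟩ := hz0 z hz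
    obtain ⟨b1, b2, b3, b4⟩ := hz0 z' hz'
    refine Prod.ext h1 ?_
    rw [← h1] at b4
    rw [h.eq_XF a2 a1 a3 a4, h.eq_XF a2 a1 b3 b4, h2]
  · rintro z hz v ⟨c, hc, hcS, h0, hdc⟩ h1 h2
    obtain ⟨a1, a2, a3, a4⟩ := hz0 z hz
    have h5 : HasDerivAt c v 0 := by
      rw [← hdc]
      exact (hc.differentiable (by simp) 0).hasDerivAt
    have h6 : HasDerivAt (fun t => (c t).1) v.1 0 := (hasFDerivAt_fst (𝕜 := ℝ) (p := c 0)).comp_hasDerivAt (0 : ℝ) h5
    have h7 : HasDerivAt (fun t => (c t).2) v.2 0 := (hasFDerivAt_snd (𝕜 := ℝ) (p := c 0)).comp_hasDerivAt (0 : ℝ) h5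
    have h8 : RR e u v = v := by
      have h9 : HasDerivAt (fun t => RR e u (c t)) (RR e u v) 0 :=
        (RR e u).hasFDerivAt.comp_hasDerivAt (0 : ℝ) h5
      have h10 : (fun t => RR e u (c t)) = c := funext fun t => (hcS t).2
      rw [h10] at h9
      exact h9.unique h5
    obtain ⟨-, h9⟩ := h.RR_eq.1 h8
    have h10 : (inner ℝ z.1 v.2 : ℝ) = 0 := by
      have h11 := h6.inner ℝ h7
      have h12 : (fun t => inner ℝ (c t).1 (c t).2 : ℝ → ℝ) = fun _ => 0 := by
        funext t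
        exact (hz0 _ (hcS t)).2.2.2
      rw [h12, h0, h1, inner_zero_left, add_zero] at h11
      exact h11.unique (hasDerivAt_const _ _)
    refine Prod.ext h1 ?_
    rw [h.eq_XF a2 a1 h9 h10, h2, zero_smul]
    rfl

end Orth

end Vale.Agent.P220.R2.H180
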